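import Vale.Agent.P129B.Sum
import Vale.Agent.P129BZ.Cls

/-!
# The real numbers of a model
-/

namespace Vale.Agent.P129B

universe v

variable {N : Type v} [ZM N] {α : Type*} [Coded N α]

/-! ### The image of a natural number of the model in a ring -/

section Cast

variable (β : Type*) [Coded N β] [Semiring β]

/-- the image of a natural number of the model -/
noncomputable def rc (n : NN N) : β := isum (fun _ => (1 : β)) n

@[simp] theorem rc_zero : rc β (0 : NN N) = 0 := isum_zero _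

variable [DefAdd N β] [DefZero N β] [DefOne N β]

theorem rc_succ (n : NN N) : rc β (n + 1) = rc β n + 1 := isum_succ (by fun_prop) n

variable {β} in
@[fun_prop] theorem DefF.rc {f : α → NN N} (hf : DefF N f) : DefF N (fun a => rc β (f a)) :=
  DefF.isum (by fun_prop) hf

instance intl_rc (n : NN N) : Intl N (rc β n) := (DefF.rc DefF.id).intl n

@[simp] theorem rc_one : rc β (1 : NN N) = 1 := isum_one (by fun_prop)

@[simp] theorem rc_add (m n : NN N) : rc β (m + n) = rc β m + rc β n :=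
  isum_add_range (by fun_prop) m n

variable [DefMul N β]

variable {β} in
theorem isum_const (c : β) [Intl N c] (n : NN N) : isum (fun _ => c) n = rc β n * c := by
  rw [rc, isum_mul c (by fun_prop), one_mul]

@[simp] theorem rc_mul (m n : NN N) : rc β (m * n) = rc β m * rc β n :=
  NN.ind (P := fun n => rc β (m * n) = rc β m * rc β n) (by fun_prop) (by simp)
    (fun n ih => by rw [mul_add_one, rc_add, ih, rc_succ, mul_add_one]) n

/-- the cast as a ring homomorphism -/
noncomputable def rcHom : NN N →+* β where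
  toFun := rc β
  map_zero' := rc_zero β
  map_one' := rc_one β
  map_add' := rc_add β
  map_mul' := rc_mul β

@[simp] theorem rc_natCast (n : ℕ) : rc β (n : NN N) = n := map_natCast (rcHom (N := N) β) n

@[simp] theorem rc_ofNat (n : ℕ) [n.AtLeastTwo] :
    rc β (no_index (OfNat.ofNat n) : NN N) = OfNat.ofNat n := rc_natCast β n

@[simp] theorem rc_pow (m : NN N) (n : ℕ) : rc β (m ^ n) = rc β m ^ n :=
  map_pow (rcHom (N := N) β) m n

theorem rc_isum {f : NN N → NN N} (hf : DefF N f) (n : NN N) :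
    rc β (isum f n) = isum (fun i => rc β (f i)) n :=
  map_isum' (φ := rc β) (DefF.rc DefF.id) (rc_zero β) (rc_add β) hf n

@[simp] theorem rc_ipow (m n : NN N) : rc β (ipow m n) = ipow (rc β m) n :=
  NN.ind (P := fun n => rc β (ipow m n) = ipow (rc β m) n) (by fun_prop) (by simp)
    (fun n ih => by rw [ipow_succ, rc_mul, ih, ipow_succ]) n

omit [DefMul N β] in
/-- definable ring homomorphisms commute with the cast -/
theorem map_rc {γ : Type*} [Coded N γ] [Semiring γ] [DefAdd N γ] [DefZero N γ] [DefOne N γ]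
    (φ : β →+* γ) (hφ : DefF N (fun x => φ x)) (n : NN N) : φ (rc β n) = rc γ n := by
  rw [rc, map_isum φ hφ (by fun_prop), map_one, rc]

end Cast

@[simp] theorem rc_nn (n : NN N) : rc (NN N) n = n :=
  NN.ind (P := fun n => rc (NN N) n = n) (by fun_prop) (by simp)
    (fun n ih => by rw [rc_succ, ih]) n

variable {R : Type*} [Field R] [LinearOrder R] [IsStrictOrderedRing R] [Coded N R] [RF N R]

theorem rc_nonneg (n : NN N) : 0 ≤ rc R n := isum_nonneg (by fun_prop) fun _ _ => zero_le_one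

theorem rc_strictMono : StrictMono (rc R : NN N → R) := by
  intro m n h
  obtain ⟨c, rfl⟩ := exists_add_of_le (NN.add_one_le_iff.2 h)
  rw [rc_add, rc_succ]
  linarith [rc_nonneg (R := R) c]

@[simp] theorem rc_lt {m n : NN N} : rc R m < rc R n ↔ m < n := rc_strictMono.lt_iff_lt
@[simp] theorem rc_le {m n : NN N} : rc R m ≤ rc R n ↔ m ≤ n := rc_strictMono.le_iff_le
@[simp] theorem rc_inj {m n : NN N} : rc R m = rc R n ↔ m = n := rc_strictMono.injective.eq_iff

theorem rc_pos {n : NN N} (h : 0 < n) : 0 < rc R n := by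
  have := (rc_lt (R := R)).2 h
  rwa [rc_zero] at this

theorem rc_succ_pos (n : NN N) : 0 < rc R n + 1 := by linarith [rc_nonneg (R := R) n]

theorem one_le_rc {n : NN N} (h : 0 < n) : 1 ≤ rc R n := by
  have := (rc_le (R := R)).2 (NN.add_one_le_iff.2 h)
  rwa [zero_add, rc_one] at this

/-- the discrete order, seen in the reals -/
theorem rc_add_one_le {m n : NN N} (h : m < n) : rc R m + 1 ≤ rc R n := by
  rw [← rc_succ]; exact rc_le.2 (NN.add_one_le_iff.2 h)

theorem lt_of_rc_lt {m n : NN N} (h : rc R m < rc R n) : m < n := rc_lt.1 h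

theorem le_of_rc_lt_add_one {m n : NN N} (h : rc R m < rc R n + 1) : m ≤ n := by
  rw [← rc_succ, rc_lt] at h; exact NN.lt_add_one_iff.1 h

theorem rc_sub {m n : NN N} (h : n ≤ m) : rc R (m - n) = rc R m - rc R n := by
  rw [eq_sub_iff_add_eq, ← rc_add, tsub_add_cancel_of_le h]

variable (N) in
/-- The Archimedean property. -/
theorem exists_rc_gt (x : R) : ∃ n : NN N, x < rc R n := by
  by_contra h
  push Not at h
  have h1 : Intl N (rc R : NN N → R) := (DefF.rc DefF.id).toIntl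
  obtain ⟨c, hc⟩ := RF.lub (N := N) (Set.range (rc R : NN N → R)) (intl_range _) ⟨_, 0, rfl⟩
    ⟨x, by rintro _ ⟨n, rfl⟩; exact h n⟩
  have h2 : c ≤ c - 1 := hc.2 (by
    rintro _ ⟨n, rfl⟩
    have := hc.1 ⟨n + 1, rfl⟩
    rw [rc_succ] at this
    linarith)
  linarith

variable (N) in
theorem exists_inv_rc_lt {ε : R} (hε : 0 < ε) : ∃ n : NN N, ∀ k, n ≤ k → (rc R k + 1)⁻¹ < ε := by
  obtain ⟨n, hn⟩ := exists_rc_gt N ε⁻¹
  refine ⟨n, fun k hk => inv_lt_of_inv_lt₀ hε ?_⟩
  linarith [(rc_le (R := R)).2 hk]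

variable (N) in
/-- the integer part of a nonnegative real number -/
theorem exists_floor {x : R} (hx : 0 ≤ x) : ∃ n : NN N, rc R n ≤ x ∧ x < rc R n + 1 := by
  obtain ⟨n, h1, h2⟩ := NN.exists_min (P := fun n : NN N => x < rc R n) (by fun_prop)
    (exists_rc_gt N x)
  rcases n.zero_or_add_one with rfl | ⟨m, rfl⟩
  · rw [rc_zero] at h1; exact absurd h1 (not_lt.2 hx)
  · exact ⟨m, not_lt.1 (h2 m m.lt_add_one), by rwa [rc_succ] at h1⟩

variable (N) in
theorem le_of_forall_inv_rc {x y : R} (h : ∀ k : NN N, x ≤ y + (rc R k + 1)⁻¹) : x ≤ y := by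
  refine le_of_forall_pos_le_add fun ε hε => ?_
  obtain ⟨n, hn⟩ := exists_inv_rc_lt N hε
  linarith [h n, hn n le_rfl]

/-! ### Powers of one half -/

variable (R) in
/-- `2⁻ⁿ` -/
noncomputable def hp (n : NN N) : R := ipow (1 / 2 : R) n

@[fun_prop] theorem DefF.hp {f : α → NN N} (hf : DefF N f) : DefF N (fun a => hp R (f a)) :=
  (DefF.const _).ipow hf

omit [IsStrictOrderedRing R] [RF N R] in
@[simp] theorem hp_zero : hp R (0 : NN N) = 1 := ipow_zero _
theorem hp_succ (n : NN N) : hp R (n + 1) = hp R n / 2 := by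
  rw [hp, ipow_succ, hp]; ring
theorem hp_add (m n : NN N) : hp R (m + n) = hp R m * hp R n := ipow_add _ m n
theorem hp_pos (n : NN N) : 0 < hp R n := ipow_pos (by norm_num) n
theorem hp_le_one (n : NN N) : hp R n ≤ 1 := ipow_le_one (by norm_num) (by norm_num) n
theorem hp_anti {m n : NN N} (h : m ≤ n) : hp R n ≤ hp R m :=
  ipow_le_ipow_of_le_one (by norm_num) (by norm_num) h

theorem two_ipow_mul_hp (n : NN N) : ipow (2 : R) n * hp R n = 1 := by
  rw [hp, ← mul_ipow]; simp

theorem rc_lt_two_ipow (n : NN N) : rc R n < ipow (2 : R) n := by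
  have := (rc_lt (R := R)).2 n.lt_two_ipow
  rwa [rc_ipow, rc_ofNat] at this

theorem rc_succ_mul_hp_le (n : NN N) : (rc R n + 1) * hp R n ≤ 1 := by
  have h := rc_add_one_le (R := R) n.lt_two_ipow
  rw [rc_ipow, rc_ofNat] at h
  exact (mul_le_mul_of_nonneg_right h (hp_pos n).le).trans_eq (two_ipow_mul_hp n)

theorem hp_le_inv (n : NN N) : hp R n ≤ (rc R n + 1)⁻¹ := by
  rw [← one_div, le_div_iff₀ (rc_succ_pos n), mul_comm]; exact rc_succ_mul_hp_le n

variable (N) in
theorem exists_hp_lt {ε : R} (hε : 0 < ε) : ∃ n : NN N, ∀ k, n ≤ k → hp R k < ε := by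
  obtain ⟨n, hn⟩ := exists_inv_rc_lt N hε
  exact ⟨n, fun k hk => (hp_le_inv k).trans_lt (hn k hk)⟩

variable (N) in
theorem exists_mul_hp_lt (C : R) {ε : R} (hε : 0 < ε) :
    ∃ n : NN N, ∀ k, n ≤ k → C * hp R k < ε := by
  obtain ⟨n, hn⟩ := exists_hp_lt N (div_pos hε (by positivity : 0 < |C| + 1))
  refine ⟨n, fun k hk => ?_⟩
  have h1 := (lt_div_iff₀ (by positivity : 0 < |C| + 1)).1 (hn k hk)
  nlinarith [hp_pos (R := R) k, le_abs_self C]

variable (N) in
theorem le_of_forall_hp {x y : R} (C : R) (h : ∀ k : NN N, x ≤ y + C * hp R k) : x ≤ y := by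
  refine le_of_forall_pos_le_add fun ε hε => ?_
  obtain ⟨n, hn⟩ := exists_mul_hp_lt N C hε
  linarith [h n, hn n le_rfl]

theorem isum_hp (n : NN N) : isum (hp R) n = 2 - 2 * hp R n :=
  NN.ind (P := fun n => isum (hp R) n = 2 - 2 * hp R n) (by fun_prop) (by norm_num)
    (fun n ih => by rw [isum_succ (by fun_prop), ih, hp_succ]; ring) n

theorem isum_hp_le (n : NN N) : isum (hp R) n ≤ 2 := by
  rw [isum_hp]; linarith [hp_pos (R := R) n]

theorem isum_hp_add (m n : NN N) : isum (fun i => hp R (m + i)) n ≤ 2 * hp R m := by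
  simp only [hp_add]
  rw [← mul_isum (hp R m) (by fun_prop), mul_comm]
  exact mul_le_mul_of_nonneg_right (isum_hp_le n) (hp_pos m).le

/-- geometric sums -/
theorem isum_ipow (x : R) (n : NN N) : (1 - x) * isum (ipow x) n = 1 - ipow x n :=
  NN.ind (P := fun n => (1 - x) * isum (ipow x) n = 1 - ipow x n) (by fun_prop) (by simp)
    (fun n ih => by rw [isum_succ (by fun_prop), mul_add, ih, ipow_succ]; ring) n

/-- Bernoulli -/
theorem one_add_mul_le_ipow {x : R} (hx : 0 ≤ x) (n : NN N) : 1 + rc R n * x ≤ ipow (1 + x) n :=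
  NN.ind (P := fun n => 1 + rc R n * x ≤ ipow (1 + x) n) (by fun_prop) (by simp)
    (fun n ih => by
      rw [ipow_succ, rc_succ]
      nlinarith [rc_nonneg (R := R) n, mul_nonneg (rc_nonneg (R := R) n) (mul_nonneg hx hx)]) n

variable (N) in
theorem exists_ipow_lt {x ε : R} (h0 : 0 ≤ x) (hx : x < 1) (hε : 0 < ε) :
    ∃ n : NN N, ∀ k, n ≤ k → ipow x k < ε := by
  obtain ⟨n, hn⟩ := exists_rc_gt N (ε * (1 - x))⁻¹
  refine ⟨n, fun k hk => (ipow_le_ipow_of_le_one h0 hx.le hk).trans_lt ?_⟩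
  have h1 := one_add_mul_le_ipow (sub_pos.2 hx).le n
  have h2 : ipow x n * ipow (1 + (1 - x)) n ≤ 1 := by
    rw [← mul_ipow]; exact ipow_le_one (by nlinarith) (by nlinarith) n
  have h3 : 1 < rc R n * (ε * (1 - x)) := by
    rwa [inv_lt_iff_one_lt_mul₀ (mul_pos hε (sub_pos.2 hx))] at hn
  by_contra h
  push Not at h
  have h4 : 0 ≤ rc R n * (1 - x) := mul_nonneg (rc_nonneg n) (sub_pos.2 hx).le
  nlinarith [mul_le_mul h h1 (by linarith) (hε.le.trans h)]

/-! ### Absolute values and sums -/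

theorem abs_isum_le {f : NN N → R} (hf : DefF N f) (n : NN N) :
    |isum f n| ≤ isum (fun i => |f i|) n :=
  NN.ind (P := fun n => |isum f n| ≤ isum (fun i => |f i|) n) (by fun_prop) (by simp)
    (fun n ih => by
      rw [isum_succ hf, isum_succ (f := fun i => |f i|) (by fun_prop)]
      linarith [abs_add_le (isum f n) (f n)]) n

theorem isum_le_const {f : NN N → R} (hf : DefF N f) {n : NN N} {c : R}
    (h : ∀ i, i < n → f i ≤ c) : isum f n ≤ rc R n * c := by
  rw [← isum_const]; exact isum_le_isum hf (by fun_prop) h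

theorem const_le_isum {f : NN N → R} (hf : DefF N f) {n : NN N} {c : R}
    (h : ∀ i, i < n → c ≤ f i) : rc R n * c ≤ isum f n := by
  rw [← isum_const]; exact isum_le_isum (by fun_prop) hf h

theorem isum_lt_isum {f g : NN N → R} (hf : DefF N f) (hg : DefF N g) {n j : NN N}
    (h : ∀ i, i < n → f i ≤ g i) (hj : j < n) (hlt : f j < g j) : isum f n < isum g n := by
  have h1 := le_isum (f := fun i => g i - f i) (by fun_prop) hj fun i hi => sub_nonneg.2 (h i hi)
  rw [isum_sub hg hf] at h1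
  linarith

theorem eq_zero_of_isum {f : NN N → R} (hf : DefF N f) {n : NN N} (h : ∀ i, i < n → 0 ≤ f i)
    (h0 : isum f n ≤ 0) {j : NN N} (hj : j < n) : f j = 0 :=
  le_antisymm ((le_isum hf hj h).trans h0) (h j hj)

/-- some term is at most the average -/
theorem exists_le_of_isum_le {f g : NN N → R} (hf : DefF N f) (hg : DefF N g) {n : NN N}
    (hn : 0 < n) (h : isum f n ≤ isum g n) : ∃ j, j < n ∧ f j ≤ g j := by
  by_contra hc
  push Not at hc
  exact absurd (isum_lt_isum hg hf (fun i hi => (hc i hi).le) hn (hc 0 hn)) (not_lt.2 h)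

theorem exists_lt_of_isum_lt {f g : NN N → R} (hf : DefF N f) (hg : DefF N g) {n : NN N}
    (h : isum f n < isum g n) : ∃ j, j < n ∧ f j < g j := by
  by_contra hc
  push Not at hc
  exact absurd (isum_le_isum hg hf hc) (not_le.2 h)

/-- Cauchy-Schwarz -/
theorem isum_mul_sq_le {f g : NN N → R} (hf : DefF N f) (hg : DefF N g) (n : NN N) :
    isum (fun i => f i * g i) n ^ 2 ≤ isum (fun i => f i ^ 2) n * isum (fun i => g i ^ 2) n := by
  have h : ∀ x : R, 0 ≤ isum (fun i => f i ^ 2) n * (x * x) +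
      2 * isum (fun i => f i * g i) n * x + isum (fun i => g i ^ 2) n := fun x => by
    have h1 := isum_nonneg (f := fun i => (f i * x + g i) ^ 2) (by fun_prop) (n := n)
      fun i _ => sq_nonneg _
    rw [isum_mul _ (by fun_prop), mul_isum _ (by fun_prop), isum_mul _ (by fun_prop),
      ← isum_add (by fun_prop) (by fun_prop), ← isum_add (by fun_prop) (by fun_prop)]
    exact h1.trans_eq (isum_congr (by fun_prop) (by fun_prop) fun i _ => by ring)
  have := discrim_le_zero h
  rw [discrim] at this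
  nlinarith

/-! ### Suprema -/

open Classical in
/-- the supremum of a set, `0` if there is none -/
noncomputable def isup {R : Type*} [Zero R] [Preorder R] (s : Set R) : R :=
  if h : ∃ c, IsLUB s c then h.choose else 0

omit [IsStrictOrderedRing R] [Coded N R] [RF N R] in
theorem IsLUB.isup_eq {s : Set R} {c : R} (h : IsLUB s c) : isup s = c := by
  have h1 : ∃ c, IsLUB s c := ⟨c, h⟩
  rw [isup, dif_pos h1]
  exact h1.choose_spec.unique h

theorem isLUB_isup {s : Set R} (hs : Intl N s) (hne : s.Nonempty) (hb : BddAbove s) :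
    IsLUB s (isup s) := by
  obtain ⟨c, hc⟩ := RF.lub s hs hne hb
  rwa [IsLUB.isup_eq hc]

theorem le_isup {s : Set R} (hs : Intl N s) (hb : BddAbove s) {x : R} (hx : x ∈ s) :
    x ≤ isup s := (isLUB_isup hs ⟨x, hx⟩ hb).1 hx

theorem isup_le {s : Set R} (hs : Intl N s) (hne : s.Nonempty) {c : R} (h : ∀ x ∈ s, x ≤ c) :
    isup s ≤ c := (isLUB_isup hs hne ⟨c, h⟩).2 h

theorem exists_lt_of_lt_isup {s : Set R} (hs : Intl N s) (hne : s.Nonempty) {c : R}
    (h : c < isup s) : ∃ x ∈ s, c < x := by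
  by_contra hc
  push Not at hc
  exact absurd (isup_le hs hne hc) (not_le.2 h)

@[fun_prop] theorem DefF.isLUB {s : α → Set R} {c : α → R} (hs : DefF N s) (hc : DefF N c) :
    DefF N (fun a => IsLUB (s a) (c a)) := by
  have : DefF N (fun a => (∀ x ∈ s a, x ≤ c a) ∧ ∀ b : R, (∀ x ∈ s a, x ≤ b) → c a ≤ b) := by
    fun_prop
  exact this

@[fun_prop] theorem DefF.isup {s : α → Set R} (hs : DefF N s) : DefF N (fun a => isup (s a)) := by
  refine defF_of_rel (R := fun a (c : R) => IsLUB (s a) c ∨ ((¬ ∃ d : R, IsLUB (s a) d) ∧ c = 0))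
    (fun _ _ => inferInstance) (by fun_prop) fun a c _ _ => ⟨?_, ?_⟩
  · rintro (h | ⟨h, rfl⟩)
    · exact IsLUB.isup_eq h
    · rw [P129B.isup, dif_neg h]
  · rintro rfl
    by_cases h : ∃ d, IsLUB (s a) d
    · obtain ⟨d, hd⟩ := h
      rw [IsLUB.isup_eq hd]; exact Or.inl hd
    · exact Or.inr ⟨h, by rw [P129B.isup, dif_neg h]⟩

/-! ### Square roots -/

variable (N) in
include N in
theorem exists_sqrt {x : R} (hx : 0 ≤ x) : ∃ y : R, 0 ≤ y ∧ y ^ 2 = x := by
  have h1 : Intl N {y : R | 0 ≤ y ∧ y ^ 2 ≤ x} := intl_setOfT (by fun_prop)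
  obtain ⟨c, hc⟩ := RF.lub _ h1 ⟨0, le_rfl, by simpa using hx⟩
    ⟨x + 1, fun y hy => by nlinarith [hy.1, hy.2]⟩
  have h0 : 0 ≤ c := hc.1 ⟨le_rfl, by simpa using hx⟩
  refine ⟨c, h0, le_antisymm (not_lt.1 fun h => ?_) (not_lt.1 fun h => ?_)⟩
  · have hc0 : 0 < c := lt_of_le_of_ne h0 fun e => by rw [← e] at h; nlinarith
    have h2 : c ≤ c - (c ^ 2 - x) / (2 * c) := hc.2 fun y hy => by
      by_contra h3
      push Not at h3
      have h4 : (c ^ 2 - x) / (2 * c) * (2 * c) = c ^ 2 - x := by field_simp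
      have h5 : 0 ≤ c - (c ^ 2 - x) / (2 * c) := by
        rw [sub_nonneg, div_le_iff₀ (by positivity)]; nlinarith
      have h6 : 0 < (c ^ 2 - x) / (2 * c) := div_pos (sub_pos.2 h) (by positivity)
      nlinarith [hy.2, mul_self_lt_mul_self h5 h3]
    have : 0 < (c ^ 2 - x) / (2 * c) := div_pos (sub_pos.2 h) (by positivity)
    linarith
  · have h2 : 0 < min 1 ((x - c ^ 2) / (2 * c + 1)) :=
      lt_min one_pos (div_pos (sub_pos.2 h) (by positivity))
    have h3 := min_le_left 1 ((x - c ^ 2) / (2 * c + 1))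
    have h4 := (le_div_iff₀ (by positivity : 0 < 2 * c + 1)).1
      (min_le_right 1 ((x - c ^ 2) / (2 * c + 1)))
    generalize min 1 ((x - c ^ 2) / (2 * c + 1)) = d at h2 h3 h4
    have : c + d ≤ c := hc.1 ⟨by positivity, by nlinarith⟩
    linarith

open Classical in
/-- the square root, `0` if there is none -/
noncomputable def rsqrt {R : Type*} [Field R] [LinearOrder R] (x : R) : R :=
  if h : ∃ y : R, 0 ≤ y ∧ y ^ 2 = x then h.choose else 0

omit [IsStrictOrderedRing R] in
theorem rsqrt_nonneg (x : R) : 0 ≤ rsqrt x := by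
  rw [rsqrt]; split_ifs with h
  exacts [h.choose_spec.1, le_rfl]

variable (N) in
include N in
theorem rsqrt_sq {x : R} (hx : 0 ≤ x) : rsqrt x ^ 2 = x := by
  have h := exists_sqrt N hx
  rw [rsqrt, dif_pos h]; exact h.choose_spec.2

variable (N) in
include N in
theorem rsqrt_mul_self {x : R} (hx : 0 ≤ x) : rsqrt x * rsqrt x = x := by
  rw [← sq, rsqrt_sq N hx]

theorem rsqrt_eq {x y : R} (hy : 0 ≤ y) (h : y ^ 2 = x) : rsqrt x = y := by
  have h1 : ∃ y : R, 0 ≤ y ∧ y ^ 2 = x := ⟨y, hy, h⟩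
  rw [rsqrt, dif_pos h1]
  exact (pow_left_inj₀ h1.choose_spec.1 hy two_ne_zero).1 (h1.choose_spec.2.trans h.symm)

variable (N) in
include N in
theorem rsqrt_pos {x : R} (hx : 0 < x) : 0 < rsqrt x :=
  lt_of_le_of_ne (rsqrt_nonneg x) fun e => by
    have := rsqrt_sq N hx.le
    rw [← e] at this
    simp at this
    exact hx.ne this

variable (N) in
include N in
theorem rsqrt_le_iff {x y : R} (hx : 0 ≤ x) (hy : 0 ≤ y) : rsqrt x ≤ y ↔ x ≤ y ^ 2 := by
  conv_rhs => rw [← rsqrt_sq N hx]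
  exact (pow_le_pow_iff_left₀ (rsqrt_nonneg x) hy two_ne_zero).symm

variable (N) in
include N in
theorem le_rsqrt_iff {x y : R} (hx : 0 ≤ x) (hy : 0 ≤ y) : y ≤ rsqrt x ↔ y ^ 2 ≤ x := by
  conv_rhs => rw [← rsqrt_sq N hx]
  exact (pow_le_pow_iff_left₀ hy (rsqrt_nonneg x) two_ne_zero).symm

@[fun_prop] theorem DefF.rsqrt {f : α → R} (hf : DefF N f) : DefF N (fun a => rsqrt (f a)) := by
  refine defF_of_rel (R := fun a (c : R) => (0 ≤ c ∧ c ^ 2 = f a) ∨ (f a < 0 ∧ c = 0))
    (fun _ _ => inferInstance) (by fun_prop) fun a c _ _ => ⟨?_, ?_⟩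
  · rintro (h | ⟨h, rfl⟩)
    · exact rsqrt_eq h.1 h.2
    · rw [P129B.rsqrt, dif_neg]
      rintro ⟨y, -, hy⟩
      nlinarith [sq_nonneg y]
  · rintro rfl
    rcases lt_or_ge (f a) 0 with h | h
    · refine Or.inr ⟨h, ?_⟩
      rw [P129B.rsqrt, dif_neg]
      rintro ⟨y, -, hy⟩
      nlinarith [sq_nonneg y]
    · exact Or.inl ⟨rsqrt_nonneg _, rsqrt_sq N h⟩

end Vale.Agent.P129B
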