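import Vale.Agent.P129B.Choice

/-!
# Internal finite sums and powers
-/

namespace Vale.Agent.P129B

universe v

variable {N : Type v} [ZM N]
variable {α β γ : Type*} [Coded N α] [Coded N β] [Coded N γ]

section Sum

variable [AddCommMonoid β]

/-- the sum of `f i` over `i < n` -/
noncomputable def isum (f : NN N → β) (n : NN N) : β := irec 0 (fun i b => b + f i) n

@[simp] theorem isum_zero (f : NN N → β) : isum f 0 = 0 := irec_zero _ _

variable [DefAdd N β] [DefZero N β]

theorem isum_succ {f : NN N → β} (hf : DefF N f) (n : NN N) : isum f (n + 1) = isum f n + f n :=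
  irec_succ (by fun_prop) n

@[fun_prop] theorem DefF.isum {f : α → NN N → β} {n : α → NN N}
    (hf : DefF N (fun p : α × NN N => f p.1 p.2)) (hn : DefF N n) :
    DefF N (fun a => isum (f a) (n a)) :=
  DefF.irec (DefF.const 0) (by fun_prop) hn

instance intl_isum (f : NN N → β) [Intl N f] (n : NN N) : Intl N (isum f n) :=
  (DefF.isum (f := fun _ : NN N => f) (by fun_prop) DefF.id).intl n

theorem intl_isum' {f : NN N → β} (hf : DefF N f) (n : NN N) : Intl N (isum f n) :=
  (DefF.isum (f := fun _ : NN N => f) (by fun_prop) DefF.id).intl n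

theorem isum_one {f : NN N → β} (hf : DefF N f) : isum f 1 = f 0 := by
  have := isum_succ hf 0
  rwa [zero_add, isum_zero, zero_add] at this

theorem isum_congr {f g : NN N → β} (hf : DefF N f) (hg : DefF N g) {n : NN N}
    (h : ∀ i, i < n → f i = g i) : isum f n = isum g n := by
  refine NN.ind (P := fun m => m ≤ n → isum f m = isum g m) (by fun_prop) (fun _ => by simp)
    (fun m ih hm => ?_) n le_rfl
  have h1 := NN.add_one_le_iff.1 hm
  rw [isum_succ hf, isum_succ hg, ih h1.le, h m h1]

@[simp] theorem isum_const_zero (n : NN N) : isum (fun _ => (0 : β)) n = 0 :=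
  NN.ind (P := fun m => isum (fun _ => (0 : β)) m = 0) (by fun_prop) (by simp)
    (fun m ih => by rw [isum_succ (by fun_prop), ih, add_zero]) n

theorem isum_eq_zero {f : NN N → β} (hf : DefF N f) {n : NN N} (h : ∀ i, i < n → f i = 0) :
    isum f n = 0 := (isum_congr hf (by fun_prop) h).trans (isum_const_zero n)

theorem isum_add {f g : NN N → β} (hf : DefF N f) (hg : DefF N g) (n : NN N) :
    isum (fun i => f i + g i) n = isum f n + isum g n :=
  NN.ind (P := fun n => isum (fun i => f i + g i) n = isum f n + isum g n) (by fun_prop) (by simp)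
    (fun m ih => by
      rw [isum_succ (f := fun i => f i + g i) (by fun_prop), isum_succ hf, isum_succ hg, ih,
        add_add_add_comm]) n

/-- splitting the range -/
theorem isum_add_range {f : NN N → β} (hf : DefF N f) (m n : NN N) :
    isum f (m + n) = isum f m + isum (fun i => f (m + i)) n :=
  NN.ind (P := fun n => isum f (m + n) = isum f m + isum (fun i => f (m + i)) n) (by fun_prop)
    (by simp) (fun n ih => by
      rw [← add_assoc, isum_succ hf, isum_succ (f := fun i => f (m + i)) (by fun_prop), ih,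
        add_assoc]) n

theorem isum_succ' {f : NN N → β} (hf : DefF N f) (n : NN N) :
    isum f (n + 1) = f 0 + isum (fun i => f (i + 1)) n := by
  rw [add_comm n 1, isum_add_range hf, isum_one hf]
  congr 2
  funext i
  rw [add_comm]

/-- terms which vanish from `m` on -/
theorem isum_of_le {f : NN N → β} (hf : DefF N f) {m n : NN N} (hmn : m ≤ n)
    (h : ∀ i, m ≤ i → i < n → f i = 0) : isum f n = isum f m := by
  obtain ⟨c, rfl⟩ := exists_add_of_le hmn
  rw [isum_add_range hf, isum_eq_zero (f := fun i => f (m + i)) (by fun_prop)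
    fun i hi => h _ le_self_add (add_lt_add_right hi m), add_zero]

theorem isum_single {f : NN N → β} (hf : DefF N f) {n j : NN N} (hj : j < n)
    (h : ∀ i, i < n → i ≠ j → f i = 0) : isum f n = f j := by
  rw [isum_of_le hf (NN.add_one_le_iff.2 hj) fun i h1 h2 => h i h2 (NN.add_one_le_iff.1 h1).ne',
    isum_succ hf, isum_eq_zero hf fun i hi => h i (hi.trans hj) hi.ne, zero_add]

theorem isum_comm {f : NN N → NN N → β} (hf : DefF N (fun p : NN N × NN N => f p.1 p.2))
    (m n : NN N) :
    isum (fun i => isum (fun j => f i j) n) m = isum (fun j => isum (fun i => f i j) m) n :=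
  NN.ind (P := fun m => isum (fun i => isum (fun j => f i j) n) m =
    isum (fun j => isum (fun i => f i j) m) n) (by fun_prop) (by simp) (fun m ih => by
      rw [isum_succ (f := fun i => isum (fun j => f i j) n) (by fun_prop), ih,
        ← isum_add (by fun_prop) (by fun_prop)]
      exact isum_congr (by fun_prop) (by fun_prop) fun j _ =>
        (isum_succ (f := fun i => f i j) (by fun_prop) m).symm) m

/-- definable additive maps commute with sums -/
theorem map_isum' [AddCommMonoid γ] [DefAdd N γ] [DefZero N γ] {φ : β → γ} (hφ : DefF N φ)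
    (h0 : φ 0 = 0) (hadd : ∀ x y, φ (x + y) = φ x + φ y) {f : NN N → β} (hf : DefF N f)
    (n : NN N) : φ (isum f n) = isum (fun i => φ (f i)) n :=
  NN.ind (P := fun n => φ (isum f n) = isum (fun i => φ (f i)) n) (by fun_prop) (by simpa using h0)
    (fun m ih => by
      rw [isum_succ hf, isum_succ (f := fun i => φ (f i)) (by fun_prop), hadd, ih]) n

theorem map_isum [AddCommMonoid γ] [DefAdd N γ] [DefZero N γ] {F : Type*} [FunLike F β γ]
    [AddMonoidHomClass F β γ] (φ : F) (hφ : DefF N (fun x => φ x)) {f : NN N → β} (hf : DefF N f)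
    (n : NN N) : φ (isum f n) = isum (fun i => φ (f i)) n :=
  map_isum' hφ (map_zero φ) (map_add φ) hf n

/-- a definable property closed under sums -/
theorem isum_induction {P : β → Prop} (hP : DefF N P) (h0 : P 0)
    (hadd : ∀ x y, P x → P y → P (x + y)) {f : NN N → β} (hf : DefF N f) {n : NN N}
    (h : ∀ i, i < n → P (f i)) : P (isum f n) := by
  refine NN.ind (P := fun m => m ≤ n → P (isum f m)) (by fun_prop) (fun _ => by simpa using h0)
    (fun m ih hm => ?_) n le_rfl
  have h1 := NN.add_one_le_iff.1 hm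
  rw [isum_succ hf]
  exact hadd _ _ (ih h1.le) (h m h1)

theorem smul_isum {R : Type*} [Coded N R] [Monoid R] [DistribMulAction R β] [DefSMul N R β]
    (c : R) [Intl N c] {f : NN N → β} (hf : DefF N f) (n : NN N) :
    c • isum f n = isum (fun i => c • f i) n :=
  map_isum' (φ := fun x => c • x) (by fun_prop) (smul_zero c) (smul_add c) hf n

theorem isum_smul {R E : Type*} [Coded N R] [Coded N E] [Semiring R] [DefAdd N R] [DefZero N R]
    [AddCommMonoid E] [DefAdd N E] [DefZero N E] [Module R E] [DefSMul N R E]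
    {f : NN N → R} (hf : DefF N f) (x : E) [Intl N x] (n : NN N) :
    isum f n • x = isum (fun i => f i • x) n :=
  map_isum' (φ := fun c : R => c • x) (by fun_prop) (zero_smul R x) (fun a b => add_smul a b x) hf n

section Order

variable [PartialOrder β] [IsOrderedAddMonoid β] [DefLE N β]

theorem isum_le_isum {f g : NN N → β} (hf : DefF N f) (hg : DefF N g) {n : NN N}
    (h : ∀ i, i < n → f i ≤ g i) : isum f n ≤ isum g n := by
  refine NN.ind (P := fun m => m ≤ n → isum f m ≤ isum g m) (by fun_prop) (fun _ => by simp)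
    (fun m ih hm => ?_) n le_rfl
  have h1 := NN.add_one_le_iff.1 hm
  rw [isum_succ hf, isum_succ hg]
  exact add_le_add (ih h1.le) (h m h1)

theorem isum_nonneg {f : NN N → β} (hf : DefF N f) {n : NN N} (h : ∀ i, i < n → 0 ≤ f i) :
    0 ≤ isum f n := by
  have := isum_le_isum (f := fun _ => (0 : β)) (by fun_prop) hf h
  rwa [isum_const_zero] at this

theorem isum_mono {f : NN N → β} (hf : DefF N f) {m n : NN N} (hmn : m ≤ n)
    (h : ∀ i, i < n → 0 ≤ f i) : isum f m ≤ isum f n := by
  obtain ⟨c, rfl⟩ := exists_add_of_le hmn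
  rw [isum_add_range hf]
  exact le_add_of_nonneg_right (isum_nonneg (by fun_prop) fun i hi => h _ (add_lt_add_right hi m))

theorem le_isum {f : NN N → β} (hf : DefF N f) {n j : NN N} (hj : j < n)
    (h : ∀ i, i < n → 0 ≤ f i) : f j ≤ isum f n := by
  refine le_trans ?_ (isum_mono hf (NN.add_one_le_iff.2 hj) h)
  rw [isum_succ hf]
  exact le_add_of_nonneg_left (isum_nonneg hf fun i hi => h i (hi.trans hj))

end Order

end Sum

section Group

variable [AddCommGroup β] [DefAdd N β] [DefZero N β] [DefNeg N β]

theorem isum_neg {f : NN N → β} (hf : DefF N f) (n : NN N) :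
    isum (fun i => -f i) n = -isum f n :=
  (map_isum' (φ := fun x : β => -x) (by fun_prop) neg_zero neg_add hf n).symm

theorem isum_sub {f g : NN N → β} (hf : DefF N f) (hg : DefF N g) (n : NN N) :
    isum (fun i => f i - g i) n = isum f n - isum g n := by
  simp only [sub_eq_add_neg]
  rw [isum_add hf hg.neg, isum_neg hg]

theorem isum_telescope {f : NN N → β} (hf : DefF N f) (n : NN N) :
    isum (fun i => f (i + 1) - f i) n = f n - f 0 := by
  have : DefSub N β := defSub_of_neg
  exact NN.ind (P := fun n => isum (fun i => f (i + 1) - f i) n = f n - f 0) (by fun_prop)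
    (by simp) (fun m ih => by
      rw [isum_succ (f := fun i => f (i + 1) - f i) (by fun_prop), ih]; abel) n

end Group

section Ring

variable [NonUnitalNonAssocSemiring β] [DefAdd N β] [DefZero N β] [DefMul N β]

theorem mul_isum (c : β) [Intl N c] {f : NN N → β} (hf : DefF N f) (n : NN N) :
    c * isum f n = isum (fun i => c * f i) n :=
  map_isum' (φ := fun x => c * x) (by fun_prop) (mul_zero c) (mul_add c) hf n

theorem isum_mul (c : β) [Intl N c] {f : NN N → β} (hf : DefF N f) (n : NN N) :
    isum f n * c = isum (fun i => f i * c) n :=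
  map_isum' (φ := fun x => x * c) (by fun_prop) (zero_mul c) (fun a b => add_mul a b c) hf n

end Ring

section Pow

variable [Monoid β]

/-- powers with an exponent of the model -/
noncomputable def ipow (x : β) (n : NN N) : β := irec 1 (fun _ b => b * x) n

@[simp] theorem ipow_zero (x : β) : ipow x (0 : NN N) = 1 := irec_zero _ _

variable [DefMul N β] [DefOne N β]

theorem ipow_succ (x : β) [Intl N x] (n : NN N) : ipow x (n + 1) = ipow x n * x :=
  irec_succ (by fun_prop) n

@[fun_prop] theorem DefF.ipow {f : α → β} {n : α → NN N} (hf : DefF N f) (hn : DefF N n) :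
    DefF N (fun a => ipow (f a) (n a)) := DefF.irec (DefF.const 1) (by fun_prop) hn

instance intl_ipow (x : β) [Intl N x] (n : NN N) : Intl N (ipow x n) :=
  (DefF.ipow (DefF.const x) DefF.id).intl n

theorem ipow_one (x : β) [Intl N x] : ipow x (1 : NN N) = x := by
  have := ipow_succ (N := N) x 0
  rwa [zero_add, ipow_zero, one_mul] at this

theorem ipow_add (x : β) [Intl N x] (m n : NN N) : ipow x (m + n) = ipow x m * ipow x n :=
  NN.ind (P := fun n => ipow x (m + n) = ipow x m * ipow x n) (by fun_prop) (by simp)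
    (fun n ih => by rw [← add_assoc, ipow_succ, ipow_succ, ih, mul_assoc]) n

@[simp] theorem one_ipow (n : NN N) : ipow (1 : β) n = 1 :=
  NN.ind (P := fun n => ipow (1 : β) n = 1) (by fun_prop) (by simp)
    (fun n ih => by rw [ipow_succ, ih, mul_one]) n

theorem ipow_mul (x : β) [Intl N x] (m n : NN N) : ipow x (m * n) = ipow (ipow x m) n :=
  NN.ind (P := fun n => ipow x (m * n) = ipow (ipow x m) n) (by fun_prop) (by simp)
    (fun n ih => by rw [mul_add_one, ipow_add, ih, ipow_succ]) n

end Pow

theorem mul_ipow [CommMonoid β] [DefMul N β] [DefOne N β] (x y : β) [Intl N x] [Intl N y]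
    (n : NN N) : ipow (x * y) n = ipow x n * ipow y n :=
  NN.ind (P := fun n => ipow (x * y) n = ipow x n * ipow y n) (by fun_prop) (by simp)
    (fun n ih => by rw [ipow_succ, ipow_succ, ipow_succ, ih, mul_mul_mul_comm]) n

section OrdPow

variable [Semiring β] [LinearOrder β] [IsStrictOrderedRing β] [DefMul N β] [DefOne N β]
  [DefZero N β] [DefLT N β] [DefLE N β]

theorem ipow_pos {x : β} [Intl N x] (hx : 0 < x) (n : NN N) : 0 < ipow x n :=
  NN.ind (P := fun n => 0 < ipow x n) (by fun_prop) (by simp)
    (fun n ih => by rw [ipow_succ]; exact mul_pos ih hx) n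

theorem ipow_nonneg {x : β} [Intl N x] (hx : 0 ≤ x) (n : NN N) : 0 ≤ ipow x n :=
  NN.ind (P := fun n => 0 ≤ ipow x n) (by fun_prop) (by simp)
    (fun n ih => by rw [ipow_succ]; exact mul_nonneg ih hx) n

theorem one_le_ipow {x : β} [Intl N x] (hx : 1 ≤ x) (n : NN N) : 1 ≤ ipow x n :=
  NN.ind (P := fun n => 1 ≤ ipow x n) (by fun_prop) (by simp)
    (fun n ih => by rw [ipow_succ]; exact one_le_mul_of_one_le_of_one_le ih hx) n

theorem ipow_le_one {x : β} [Intl N x] (h0 : 0 ≤ x) (hx : x ≤ 1) (n : NN N) : ipow x n ≤ 1 :=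
  NN.ind (P := fun n => ipow x n ≤ 1) (by fun_prop) (by simp)
    (fun n ih => by rw [ipow_succ]; exact mul_le_one₀ ih h0 hx) n

theorem ipow_le_ipow_left {x y : β} [Intl N x] [Intl N y] (h0 : 0 ≤ x) (h : x ≤ y) (n : NN N) :
    ipow x n ≤ ipow y n :=
  NN.ind (P := fun n => ipow x n ≤ ipow y n) (by fun_prop) (by simp)
    (fun n ih => by
      rw [ipow_succ, ipow_succ]; exact mul_le_mul ih h h0 (ipow_nonneg (h0.trans h) n)) n

theorem ipow_le_ipow_right {x : β} [Intl N x] (hx : 1 ≤ x) {m n : NN N} (h : m ≤ n) :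
    ipow x m ≤ ipow x n := by
  obtain ⟨c, rfl⟩ := exists_add_of_le h
  rw [ipow_add]
  exact le_mul_of_one_le_right (ipow_nonneg (zero_le_one.trans hx) m) (one_le_ipow hx c)

theorem ipow_le_ipow_of_le_one {x : β} [Intl N x] (h0 : 0 ≤ x) (hx : x ≤ 1) {m n : NN N}
    (h : m ≤ n) : ipow x n ≤ ipow x m := by
  obtain ⟨c, rfl⟩ := exists_add_of_le h
  rw [ipow_add]
  exact mul_le_of_le_one_right (ipow_nonneg h0 m) (ipow_le_one h0 hx c)

end OrdPow

theorem NN.lt_two_ipow (n : NN N) : n < ipow (2 : NN N) n :=
  NN.ind (P := fun n => n < ipow (2 : NN N) n) (by fun_prop) (by simp)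
    (fun n ih => by
      rw [ipow_succ, mul_two]
      exact add_lt_add_of_lt_of_le ih (one_le_ipow one_le_two n)) n

/-- A finite family in a linear order has a largest member. -/
theorem exists_imax [LinearOrder β] [DefLE N β] {f : NN N → β} (hf : DefF N f) {n : NN N}
    (hn : 0 < n) : ∃ j, j < n ∧ ∀ i, i < n → f i ≤ f j := by
  refine NN.ind (P := fun n => 0 < n → ∃ j, j < n ∧ ∀ i, i < n → f i ≤ f j) (by fun_prop)
    (fun h => absurd h (lt_irrefl _)) (fun m ih _ => ?_) n hn
  rcases eq_or_lt_of_le (NN.zero_le' m) with rfl | hm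
  · exact ⟨0, NN.lt_add_one 0, fun i hi => by
      rw [le_antisymm (NN.lt_add_one_iff.1 hi) (NN.zero_le' i)]⟩
  · obtain ⟨j, hj, h⟩ := ih hm
    rcases le_total (f m) (f j) with h1 | h1
    · exact ⟨j, hj.trans (NN.lt_add_one m), fun i hi =>
        (NN.lt_add_one_cases hi).elim (h i) fun e => e ▸ h1⟩
    · exact ⟨m, NN.lt_add_one m, fun i hi =>
        (NN.lt_add_one_cases hi).elim (fun k => (h i k).trans h1) fun e => e ▸ le_rfl⟩

/-- A finite family in a linear order is bounded. -/
theorem exists_ibound [LinearOrder β] [DefLE N β] {f : NN N → β} (hf : DefF N f) (n : NN N) :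
    ∃ j, ∀ i, i < n → f i ≤ f j := by
  obtain ⟨j, -, h⟩ := exists_imax hf (n := n + 1) (NN.lt_add_one_iff.2 (NN.zero_le' n))
  exact ⟨j, fun i hi => h i (hi.trans (NN.lt_add_one n))⟩

end Vale.Agent.P129B
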