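import Vale.Agent.P129B.Rec

/-!
# Choice and dependent choice inside the model
-/

namespace Vale.Agent.P129B

open Vale.Agent.P323.Z

universe v

variable {N : Type v} [ZM N]
variable {α β γ : Type*} [Coded N α] [Coded N β] [Coded N γ]

/-- A choice function for the nonempty subsets of a set of the model. -/
theorem exists_chooser (B : N) : ∃ c : N, (∀ s, (∀ x, x ∈ s → x ∈ B) → (∃ x, x ∈ s) →
    ∃ y, y ∈ s ∧ op s y ∈ c) ∧ ∀ s y z : N, op s y ∈ c → op s z ∈ c → y = z := by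
  obtain ⟨F, hF⟩ := DefF.sep (N := N) (Q := fun s => ∃ x : N, x ∈ s) (by fun_prop) (pow B)
  obtain ⟨c, U, hc, hc'⟩ := ZM.ac (N := N) F fun A hA => ((hF A).1 hA).2
  refine ⟨c, fun s hs hne => ?_, fun s y z hy hz => ?_⟩
  · obtain ⟨y, hy, -⟩ := hc.value s ((hF s).2 ⟨mem_pow.2 hs, hne⟩)
    exact ⟨y, hc' s y hy, pairMem_iff.1 hy⟩
  · obtain ⟨x, y', hx, -, h⟩ := hc.pairs _ hy
    obtain ⟨rfl, rfl⟩ := op_inj.1 (isOPair_iff.1 h)
    exact (hc.value s hx).unique (pairMem_iff.2 hy) (pairMem_iff.2 hz)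

/-- A definable choice of witnesses from an internal set. -/
theorem exists_defF_choice_of_set [Nonempty β] (B : Set β) [hB : Intl N B] {R : α → β → Prop}
    (hR : DefF N (fun p : α × β => R p.1 p.2)) (h : ∀ a, Intl N a → ∃ b ∈ B, R a b) :
    ∃ f : α → β, DefF N f ∧ ∀ a, Intl N a → f a ∈ B ∧ R a (f a) := by
  classical
  obtain ⟨c, hc1, hc2⟩ := exists_chooser (code N B)
  have hS : DefF N (fun a => {b | b ∈ B ∧ R a b}) :=
    defF_set (fun a _ => intl_sep (hR.comp2 (DefF.const a) DefF.id) B) (by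
      simp only [Set.mem_setOf_eq]; fun_prop)
  have key : ∀ a, Intl N a → ∃ b, (b ∈ B ∧ R a b) ∧
      op (code N {b | b ∈ B ∧ R a b}) (code N b) ∈ c := by
    intro a ha
    have h1 := hS.intl a
    obtain ⟨b, hb, hb'⟩ := h a ha
    obtain ⟨y, hy, hy'⟩ := hc1 (code N {b | b ∈ B ∧ R a b}) (fun x hx => by
      obtain ⟨d, hd, rfl⟩ := (mem_code_set h1).1 hx
      exact (code_mem_code hB (hB.of_mem hd.1)).2 hd.1)
      ⟨_, (code_mem_code h1 (hB.of_mem hb)).2 ⟨hb, hb'⟩⟩
    obtain ⟨d, hd, rfl⟩ := (mem_code_set h1).1 hy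
    exact ⟨d, hd, hy'⟩
  choose! f hf1 hf2 using key
  refine ⟨f, defF_of_rel (R := fun a b => op (code N {b | b ∈ B ∧ R a b}) (code N b) ∈ c)
    (fun a ha => hB.of_mem (hf1 a ha).1) ?_ fun a b ha hb => ⟨fun H => ?_, ?_⟩, hf1⟩
  · exact DefF.memN (DefF.op (hS.comp DefF.id.fst).code DefF.id.snd.code) (DefF.const c)
  · exact code_inj (hB.of_mem (hf1 a ha).1) hb (hc2 _ _ _ (hf2 a ha) H)
  · rintro rfl
    exact hf2 a ha

/-- A definable choice of witnesses. -/
theorem exists_defF_choice [Nonempty β] [Bdd N β] {R : α → β → Prop}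
    (hR : DefF N (fun p : α × β => R p.1 p.2)) (h : ∀ a, Intl N a → ∃ b, Intl N b ∧ R a b) :
    ∃ f : α → β, DefF N f ∧ ∀ a, Intl N a → R a (f a) := by
  obtain ⟨f, h1, h2⟩ := exists_defF_choice_of_set {b : β | Intl N b} hR h
  exact ⟨f, h1, fun a ha => (h2 a ha).2⟩

/-- **The axiom of choice.** -/
theorem exists_intl_choice [Tot N α] [Bdd N β] {R : α → β → Prop}
    (hR : DefF N (fun p : α × β => R p.1 p.2)) (h : ∀ a, ∃ b, Intl N b ∧ R a b) :
    ∃ f : α → β, Intl N f ∧ ∀ a, R a (f a) := by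
  rcases isEmpty_or_nonempty α with hα | hα
  · refine ⟨fun a => isEmptyElim a, intl_fun_graph.2 ?_, fun a => isEmptyElim a⟩
    have : graph (fun a : α => (isEmptyElim a : β)) = ∅ := by
      ext p; exact isEmptyElim p.1
    rw [this]; infer_instance
  · obtain ⟨a⟩ := hα
    obtain ⟨b, -⟩ := h a
    have : Nonempty β := ⟨b⟩
    obtain ⟨f, h1, h2⟩ := exists_defF_choice hR fun a _ => h a
    exact ⟨f, h1.toIntl, fun a => h2 a inferInstance⟩

/-- The axiom of choice, all witnesses being internal. -/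
theorem exists_intl_choiceT [Tot N α] [Tot N β] {R : α → β → Prop}
    (hR : DefF N (fun p : α × β => R p.1 p.2)) (h : ∀ a, ∃ b, R a b) :
    ∃ f : α → β, Intl N f ∧ ∀ a, R a (f a) :=
  exists_intl_choice hR fun a => (h a).imp fun _ hb => ⟨inferInstance, hb⟩

/-- The axiom of choice on a definable part of the domain. -/
theorem exists_intl_choice_on [Tot N α] [Bdd N β] (b₀ : β) [Intl N b₀] {P : α → Prop}
    {R : α → β → Prop} (hP : DefF N P) (hR : DefF N (fun p : α × β => R p.1 p.2))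
    (h : ∀ a, P a → ∃ b, Intl N b ∧ R a b) : ∃ f : α → β, Intl N f ∧ ∀ a, P a → R a (f a) :=
  exists_intl_choice (R := fun a b => P a → R a b) (by fun_prop) fun a => by
    by_cases ha : P a
    · exact (h a ha).imp fun b hb => ⟨hb.1, fun _ => hb.2⟩
    · exact ⟨b₀, inferInstance, fun h => absurd h ha⟩

/-- **Dependent choice** with a definable invariant. -/
theorem exists_intl_seq [Bdd N β] {Inv : NN N → β → Prop} {R : NN N → β → β → Prop}
    (hI : DefF N (fun p : NN N × β => Inv p.1 p.2))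
    (hR : DefF N (fun p : NN N × β × β => R p.1 p.2.1 p.2.2)) (b₀ : β)
    [Intl N b₀] (h0 : Inv 0 b₀)
    (hstep : ∀ n b, Intl N b → Inv n b → ∃ c, Intl N c ∧ Inv (n + 1) c ∧ R n b c) :
    ∃ s : NN N → β, Intl N s ∧ s 0 = b₀ ∧ ∀ n, Inv n (s n) ∧ R n (s n) (s (n + 1)) := by
  have : Nonempty β := ⟨b₀⟩
  have hR' : DefF N (fun p : (NN N × β) × β => R p.1.1 p.1.2 p.2) :=
    DefF.comp (f := fun p : NN N × β × β => R p.1 p.2.1 p.2.2)
      (g := fun p : (NN N × β) × β => (p.1.1, p.1.2, p.2)) hR (by fun_prop)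
  obtain ⟨f, hf1, hf2⟩ := exists_defF_choice (N := N) (α := NN N × β) (β := β)
    (R := fun p c => Inv p.1 p.2 → Inv (p.1 + 1) c ∧ R p.1 p.2 c)
    (DefF.imp (by fun_prop) (DefF.and (by fun_prop) hR'))
    fun p _ => by
      by_cases h : Inv p.1 p.2
      · obtain ⟨d, hd, hd'⟩ := hstep p.1 p.2 inferInstance h
        exact ⟨d, hd, fun _ => hd'⟩
      · exact ⟨b₀, inferInstance, fun h' => absurd h' h⟩
  obtain ⟨s, hs, hs0, hs1⟩ := exists_intl_rec (N := N) b₀ (s := fun n b => f (n, b)) hf1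
  have h1 : ∀ n, Inv n (s n) → Inv (n + 1) (s (n + 1)) ∧ R n (s n) (s (n + 1)) := fun n h => by
    rw [hs1]; exact hf2 (n, s n) inferInstance h
  have h2 : ∀ n, Inv n (s n) :=
    NN.ind (P := fun n => Inv n (s n)) (by fun_prop) (hs0 ▸ h0) fun n ih => (h1 n ih).1
  exact ⟨s, hs, hs0, fun n => ⟨h2 n, (h1 n (h2 n)).2⟩⟩

/-- **Dependent choice, course of values**: `R n t` speaks about the values `t i`, `i ≤ n`. -/
theorem exists_intl_cov [Bdd N β] (b₀ : β) [Intl N b₀] {R : NN N → (NN N → β) → Prop}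
    (hR : DefF N (fun p : NN N × (NN N → β) => R p.1 p.2))
    (hloc : ∀ n t u, (∀ i, i ≤ n → t i = u i) → R n t → R n u)
    (hstep : ∀ n t, Intl N t → (∀ i, i < n → R i t) →
      ∃ u, Intl N u ∧ (∀ i, i < n → u i = t i) ∧ R n u) :
    ∃ s : NN N → β, Intl N s ∧ ∀ n, R n s := by
  obtain ⟨T, hT, -, h1⟩ := exists_intl_seq (N := N) (β := NN N → β)
    (Inv := fun n t => ∀ i, i < n → R i t) (R := fun n t u => ∀ i, i < n → u i = t i)
    (by fun_prop) (by fun_prop) (fun _ => b₀) (fun i hi => absurd hi (NN.not_lt_zero' i))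
    fun n t ht hI => by
      obtain ⟨u, hu, h2, h3⟩ := hstep n t ht hI
      refine ⟨u, hu, fun i hi => ?_, h2⟩
      rcases NN.lt_add_one_cases hi with h | rfl
      · exact hloc i t u (fun j hj => (h2 j (hj.trans_lt h)).symm) (hI i h)
      · exact h3
  have hT2 := DefF.ofIntl2 (N := N) T
  have h2 : ∀ i n, i < n → T n i = T (i + 1) i := fun i n hn =>
    NN.le_ind (P := fun n => T n i = T (i + 1) i) (by fun_prop) rfl
      (fun n hn ih => ((h1 n).2 i (NN.add_one_le_iff.1 hn)).trans ih) (NN.add_one_le_iff.2 hn)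
  refine ⟨fun i => T (i + 1) i, DefF.toIntl (by fun_prop), fun n => ?_⟩
  exact hloc n (T (n + 1)) _ (fun i hi => h2 i (n + 1) (NN.lt_add_one_iff.2 hi))
    ((h1 (n + 1)).1 n (NN.lt_add_one n))

/-- A definable function from unique existence. -/
theorem exists_defF_of_unique [Nonempty β] {R : α → β → Prop}
    (hR : DefF N (fun p : α × β => R p.1 p.2)) (h : ∀ a, Intl N a → ∃ b, Intl N b ∧ R a b)
    (hu : ∀ a b c, Intl N a → Intl N b → Intl N c → R a b → R a c → b = c) :
    ∃ f : α → β, DefF N f ∧ ∀ a, Intl N a → R a (f a) := by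
  choose! f h1 h2 using h
  exact ⟨f, defF_of_rel h1 hR fun a b ha hb =>
    ⟨fun H => hu a _ _ ha (h1 a ha) hb (h2 a ha) H, fun H => H ▸ h2 a ha⟩, h2⟩

/-! ### More operations on sets -/

@[fun_prop] theorem DefF.sepSet {s : α → Set β} {P : α → β → Prop} (hs : DefF N s)
    (h : DefF N (fun p : α × β => P p.1 p.2)) : DefF N (fun a => {b | b ∈ s a ∧ P a b}) :=
  defF_set (fun a _ => by
    have := hs.intl a
    exact intl_sep (h.comp2 (DefF.const a) DefF.id) (s a)) (by
      simp only [Set.mem_setOf_eq]; fun_prop)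

@[fun_prop] theorem DefF.inter {s t : α → Set β} (hs : DefF N s) (ht : DefF N t) :
    DefF N (fun a => s a ∩ t a) :=
  DefF.sepSet (P := fun a b => b ∈ t a) hs (by fun_prop)

@[fun_prop] theorem DefF.diff {s t : α → Set β} (hs : DefF N s) (ht : DefF N t) :
    DefF N (fun a => s a \ t a) :=
  DefF.sepSet (P := fun a b => ¬ b ∈ t a) hs (by fun_prop)

instance intl_union (s t : Set β) [hs : Intl N s] [ht : Intl N t] : Intl N (s ∪ t) := by
  refine intl_set.2 ⟨fun a ha => ha.elim hs.of_mem ht.of_mem, un (code N s) (code N t),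
    fun x => ?_⟩
  rw [mem_un, mem_code_set hs, mem_code_set ht]
  constructor
  · rintro (⟨a, ha, h⟩ | ⟨a, ha, h⟩)
    exacts [⟨a, Or.inl ha, h⟩, ⟨a, Or.inr ha, h⟩]
  · rintro ⟨a, ha | ha, h⟩
    exacts [Or.inl ⟨a, ha, h⟩, Or.inr ⟨a, ha, h⟩]

@[fun_prop] theorem DefF.union {s t : α → Set β} (hs : DefF N s) (ht : DefF N t) :
    DefF N (fun a => s a ∪ t a) :=
  defF_set (fun a _ => by
    have := hs.intl a
    have := ht.intl a
    infer_instance) (by simp only [Set.mem_union]; fun_prop)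

instance intl_singleton (b : β) [h : Intl N b] : Intl N ({b} : Set β) :=
  intl_of_finite (Set.finite_singleton b) fun _ ha => ha ▸ h

@[fun_prop] theorem DefF.singletonSet {f : α → β} (hf : DefF N f) :
    DefF N (fun a => ({f a} : Set β)) :=
  defF_set (fun a _ => by
    have := hf.intl a
    infer_instance) (by simp only [Set.mem_singleton_iff]; fun_prop)

@[fun_prop] theorem DefF.insertSet {f : α → β} {s : α → Set β} (hf : DefF N f) (hs : DefF N s) :
    DefF N (fun a => insert (f a) (s a)) := (hf.singletonSet.union hs).congr fun _ _ => rfl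

instance intl_insert (b : β) (s : Set β) [Intl N b] [Intl N s] : Intl N (insert b s) :=
  (DefF.id.insertSet (DefF.const s)).intl b

instance intl_inter (s t : Set β) [Intl N s] [Intl N t] : Intl N (s ∩ t) :=
  (DefF.id.inter (DefF.const t)).intl s

instance intl_diff (s t : Set β) [Intl N s] [Intl N t] : Intl N (s \ t) :=
  (DefF.id.diff (DefF.const t)).intl s

@[fun_prop] theorem DefF.imageSet {f : α → β → γ} {s : α → Set β}
    (hf : DefF N (fun p : α × β => f p.1 p.2)) (hs : DefF N s) : DefF N (fun a => f a '' s a) :=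
  defF_set (fun a _ => by
    have := hs.intl a
    exact intl_image (hf.comp2 (DefF.const a) DefF.id) (s a)) (by
      simp only [Set.mem_image]; fun_prop)

@[fun_prop] theorem DefF.range [Tot N β] {f : α → β → γ}
    (hf : DefF N (fun p : α × β => f p.1 p.2)) : DefF N (fun a => Set.range (f a)) :=
  (hf.imageSet (DefF.const Set.univ)).congr fun _ _ => Set.image_univ

@[fun_prop] theorem DefF.nonempty {s : α → Set β} (hs : DefF N s) :
    DefF N (fun a => (s a).Nonempty) := by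
  have : DefF N (fun a => ∃ b ∈ s a, True) := by fun_prop
  exact this.congrP fun a _ => ⟨fun ⟨b, h, _⟩ => ⟨b, h⟩, fun ⟨b, h⟩ => ⟨b, h, trivial⟩⟩

theorem intl_sUnion (S : Set (Set β)) [hS : Intl N S] : Intl N (⋃₀ S) := by
  refine intl_set.2 ⟨fun a ⟨s, hs, ha⟩ => (hS.of_mem hs).of_mem ha, sUnion (code N S), fun x => ?_⟩
  rw [mem_sUnion]
  constructor
  · rintro ⟨y, hy, hx⟩
    obtain ⟨s, hs, rfl⟩ := (mem_code_set hS).1 hy
    obtain ⟨a, ha, rfl⟩ := (mem_code_set (hS.of_mem hs)).1 hx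
    exact ⟨a, ⟨s, hs, ha⟩, rfl⟩
  · rintro ⟨a, ⟨s, hs, ha⟩, rfl⟩
    exact ⟨_, (code_mem_code hS (hS.of_mem hs)).2 hs,
      (code_mem_code (hS.of_mem hs) ((hS.of_mem hs).of_mem ha)).2 ha⟩

/-- Indexed unions. -/
theorem intl_iUnion [Tot N α] {s : α → Set β} (hs : DefF N s) : Intl N (⋃ a, s a) := by
  have := hs.toIntl
  have := intl_range (N := N) s
  exact intl_sUnion (Set.range s)

@[fun_prop] theorem DefF.setOfT' [Tot N β] {P : α → β → Prop}
    (h : DefF N (fun p : α × β => P p.1 p.2)) : DefF N (fun a => {b | P a b}) := h.setOfT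

end Vale.Agent.P129B
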