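import Vale.Agent.P129Z.Stmt

/-!
# The partition relation `κ → (ω)^{<ω}_2` in a model of set theory
-/

namespace Vale.Agent.P129B.S

open Vale.Agent.P323.Z Vale.Agent.P129Z.S

variable {M : Type*} (E : M → M → Prop)

/-- In `(M, E)` there is a set `K` with `K → (ω)^{<ω}_2`: for every two-colouring of the finite
subsets of `K` (the colour of `s` tells whether `s ∈ C`) there is an infinite `H ⊆ K` such that
finite subsets of `H` of the same size have the same colour. -/
def HasErdos : Prop :=
  ∃ K, ∀ C, ∃ H, Sub E H K ∧ ¬ IsFinite E H ∧ ∀ s t, Sub E s H → Sub E t H → IsFinite E s →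
    (∃ f, IsInjection E f s t ∧ IsSurjection E f s t) → (E s C ↔ E t C)

end Vale.Agent.P129B.S
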