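import Vale.Agent.P129Z.Stmt

/-!
# Measurable cardinals in a model of set theory

`(M, E)` is a set `M` with a binary relation `E`; read `E x y` as `x ∈ y`. All quantifiers range
over `M`.
-/

namespace Vale.Agent.P129B.S

open Vale.Agent.P323.Z Vale.Agent.P129Z.S

variable {M : Type*} (E : M → M → Prop)

/-- `|A| < |B|`: there is an injection from `A` into `B` and none from `B` into `A`. -/
def CardLt (A B : M) : Prop := (∃ j, IsInjection E j A B) ∧ ¬ ∃ j, IsInjection E j B A

/-- `K` is uncountable and `U` is a `|K|`-complete nonprincipal ultrafilter on `K`. -/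
structure IsMeasure (K U : M) : Prop where
  uncountable : ∀ w, IsOmega E w → CardLt E w K
  sub : ∀ A, E A U → Sub E A K
  univ : E K U
  proper : ∀ A, E A U → ∃ x, E x A
  up : ∀ A B, E A U → Sub E A B → Sub E B K → E B U
  inter : ∀ A B C, E A U → E B U → (∀ x, E x C ↔ E x A ∧ E x B) → E C U
  ultra : ∀ A B, Sub E A K → (∀ x, E x B ↔ E x K ∧ ¬ E x A) → E A U ∨ E B U
  free : ∀ A x, (∀ y, E y A ↔ y = x) → ¬ E A U
  complete : ∀ F C, Sub E F U → CardLt E F K → (∀ x, E x C ↔ E x K ∧ ∀ A, E A F → E x A) → E C U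

/-- In `(M, E)` there is a measurable cardinal. -/
def HasMeasurable : Prop := ∃ K U, IsMeasure E K U

end Vale.Agent.P129B.S
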