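import Vale.Agent.P129BH.Con0
import Vale.Agent.P129BQ.RFo
import Vale.Agent.P129BM.All
import Vale.Agent.P129BN.NV

/-!
# The relative consistency of the positive answer
-/

namespace Vale.Agent.P129B

open Vale.Agent.P323.Z Vale.Agent.P129Z.S

universe v

theorem poset_all (N : Type v) [ZM N] : P129BH.POSET N := by
  rintro A hA ⟨S⟩
  obtain ⟨ev, h⟩ := S.exists_rfo
  exact ⟨S.PP, inferInstance, inferInstance, inferInstance, inferInstance, inferInstance, ev, h⟩

/-- From any model of ZFC with a large cardinal to a model of ZFC in which every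
infinite-dimensional Banach space has a separable infinite-dimensional quotient. -/
theorem exists_model_sq {M : Type v} {E : M → M → Prop} (h : IsZFCModel E)
    (a : S.HasMeasurable E ∨ S.HasErdos E) :
    ∃ (N : Type) (F : N → N → Prop), IsZFCModel F ∧ SQReal F ∧ SQComplex F ∧
      (∃ R K X, IsReals F R ∧ IsRealScalars F R K ∧ IsBanach F R K X ∧ ¬ FiniteDim F K X) ∧
      (∃ R K X, IsReals F R ∧ IsComplexScalars F R K ∧ IsBanach F R K X ∧ ¬ FiniteDim F K X) := by
  obtain ⟨N, _, hN⟩ := P129BH.exists_FS_of (fun N _ => poset_all N) h a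
  exact ⟨N, ZM.E, ⟨ZM.zf, ZM.ac⟩, (Pl.sq_of_FS hN).1, (Pl.sq_of_FS hN).2,
    exists_infinite_dim_real N, exists_infinite_dim_complex N⟩

end Vale.Agent.P129B
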