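import Vale.Agent.P129B.Coded2

/-!
# The natural numbers of a model: order, successor, induction
-/

namespace Vale.Agent.P129B

universe v

variable {N : Type v} [ZM N]
variable {α β γ : Type*} [Coded N α] [Coded N β] [Coded N γ]

@[fun_prop] theorem DefF.upair {f g : α → N} (hf : DefF N f) (hg : DefF N g) :
    DefF N (fun a => upair (f a) (g a)) :=
  DefF.comp2 (F := fun x y : N => P129B.upair x y) (defF_of_rel
    (R := fun (p : N × N) (z : N) => ∀ w : N, w ∈ z ↔ w = p.1 ∨ w = p.2)
    (fun _ _ => inferInstance) (by fun_prop) fun p z _ _ =>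
      ⟨fun h => ext fun w => mem_upair.trans (h w).symm, fun h w => h ▸ mem_upair⟩) hf hg

@[fun_prop] theorem DefF.sUnion {f : α → N} (hf : DefF N f) : DefF N (fun a => sUnion (f a)) :=
  DefF.comp (f := fun x : N => P129B.sUnion x) (defF_of_rel
    (R := fun (p : N) (z : N) => ∀ w : N, w ∈ z ↔ ∃ y : N, y ∈ p ∧ w ∈ y)
    (fun _ _ => inferInstance) (by fun_prop) fun p z _ _ =>
      ⟨fun h => ext fun w => mem_sUnion.trans (h w).symm, fun h w => h ▸ mem_sUnion⟩) hf

@[fun_prop] theorem DefF.powN {f : α → N} (hf : DefF N f) : DefF N (fun a => pow (f a)) :=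
  DefF.comp (f := fun x : N => P129B.pow x) (defF_of_rel
    (R := fun (p : N) (z : N) => ∀ w : N, w ∈ z ↔ ∀ y : N, y ∈ w → y ∈ p)
    (fun _ _ => inferInstance) (by fun_prop) fun p z _ _ =>
      ⟨fun h => ext fun w => mem_pow.trans (h w).symm, fun h w => h ▸ mem_pow⟩) hf

@[fun_prop] theorem DefF.un {f g : α → N} (hf : DefF N f) (hg : DefF N g) :
    DefF N (fun a => un (f a) (g a)) := (hf.upair hg).sUnion

@[fun_prop] theorem DefF.ins {f g : α → N} (hf : DefF N f) (hg : DefF N g) :
    DefF N (fun a => ins (f a) (g a)) := hg.un (hf.upair hf)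

@[fun_prop] theorem DefF.elVal {A : N} {f : α → El A} (hf : DefF N f) :
    DefF N (fun a => (f a).1) := hf.code

/-- A definable function with values in a set. -/
theorem DefF.elMk {A : N} {f : α → N} (hf : DefF N f) (h : ∀ a, f a ∈ A) :
    DefF (β := El A) N (fun a => ⟨f a, h a⟩) := ⟨fun _ _ => Tot.intl _, hf.2⟩

theorem defF_el {A : N} {f : α → El A} (hf : DefF N (fun a => (f a).1)) : DefF N f :=
  ⟨fun _ _ => inferInstance, hf.2⟩

/-- Induction on the natural numbers of the model. -/
theorem omega_ind {Q : N → Prop} (h : DefF N Q) (h0 : Q (emp N))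
    (hs : ∀ x, x ∈ omega N → Q x → Q (ins x x)) {x : N} (hx : x ∈ omega N) : Q x :=
  h.d1.omega_ind h0 hs hx

theorem omega_trans {x : N} (hx : x ∈ omega N) : ∀ y, y ∈ x → y ∈ omega N := by
  refine omega_ind (Q := fun x => ∀ y, y ∈ x → y ∈ omega N) (by fun_prop)
    (fun y hy => absurd hy (not_mem_emp y)) (fun x hx ih y hy => ?_) hx
  rcases mem_ins.1 hy with h | rfl
  exacts [ih y h, hx]

theorem omega_el_trans {x : N} (hx : x ∈ omega N) : ∀ y, y ∈ x → ∀ z, z ∈ y → z ∈ x := by
  refine omega_ind (Q := fun x => ∀ y, y ∈ x → ∀ z, z ∈ y → z ∈ x) (by fun_prop)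
    (fun y hy => absurd hy (not_mem_emp y)) (fun x _ ih y hy z hz => ?_) hx
  rcases mem_ins.1 hy with h | rfl
  exacts [mem_ins.2 (Or.inl (ih y h z hz)), mem_ins.2 (Or.inl hz)]

theorem omega_succ_mem {x : N} (hx : x ∈ omega N) :
    ∀ y, y ∈ x → ins y y ∈ x ∨ ins y y = x := by
  refine omega_ind (Q := fun x => ∀ y, y ∈ x → ins y y ∈ x ∨ ins y y = x) (by fun_prop)
    (fun y hy => absurd hy (not_mem_emp y)) (fun x _ ih y hy => ?_) hx
  rcases mem_ins.1 hy with h | rfl
  · exact Or.inl (mem_ins.2 (ih y h))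
  · exact Or.inr rfl

theorem omega_emp {x : N} (hx : x ∈ omega N) : emp N ∈ x ∨ emp N = x := by
  refine omega_ind (Q := fun x => emp N ∈ x ∨ emp N = x) (by fun_prop) (Or.inr rfl)
    (fun x _ ih => Or.inl (mem_ins.2 ih)) hx

theorem omega_tri {x : N} (hx : x ∈ omega N) {y : N} (hy : y ∈ omega N) :
    x ∈ y ∨ x = y ∨ y ∈ x := by
  refine omega_ind (Q := fun x => x ∈ y ∨ x = y ∨ y ∈ x) (by fun_prop) ?_
    (fun x _ ih => ?_) hx
  · rcases omega_emp hy with h | h
    exacts [Or.inl h, Or.inr (Or.inl h)]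
  · rcases ih with h | h | h
    · rcases omega_succ_mem hy x h with h | h
      exacts [Or.inl h, Or.inr (Or.inl h)]
    · exact Or.inr (Or.inr (mem_ins.2 (Or.inr h.symm)))
    · exact Or.inr (Or.inr (mem_ins.2 (Or.inl h)))

variable (N) in
/-- the natural numbers of the model -/
def NN : Type v := El (omega N)

noncomputable instance : Coded N (NN N) := codedEl (omega N)
instance : Tot N (NN N) := inferInstanceAs (Tot N (El (omega N)))

namespace NN

/-- the underlying set -/
def val (n : NN N) : N := Subtype.val n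

theorem prop (n : NN N) : n.val ∈ omega N := Subtype.prop n

/-- a natural number from a member of `omega` -/
def mk (x : N) (h : x ∈ omega N) : NN N := Subtype.mk x h

@[simp] theorem val_mk (x : N) (h : x ∈ omega N) : (mk x h).val = x := rfl

theorem ext {m n : NN N} (h : m.val = n.val) : m = n := Subtype.ext h

theorem code_eq (n : NN N) : code N n = n.val := rfl

noncomputable instance : LinearOrder (NN N) where
  le m n := m.val ∈ n.val ∨ m = n
  lt m n := m.val ∈ n.val
  le_refl _ := Or.inr rfl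
  le_trans a b c h k := by
    rcases h with h | rfl
    · rcases k with k | rfl
      exacts [Or.inl (omega_el_trans c.prop _ k _ h), Or.inl h]
    · exact k
  lt_iff_le_not_ge a b := by
    constructor
    · intro h
      refine ⟨Or.inl h, ?_⟩
      rintro (k | rfl)
      exacts [mem_asymm h k, mem_irrefl _ h]
    · rintro ⟨h | rfl, k⟩
      exacts [h, absurd (Or.inr rfl) k]
  le_antisymm a b h k := by
    rcases h with h | h
    · rcases k with k | k
      exacts [absurd k (mem_asymm h), k.symm]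
    · exact h
  le_total a b := by
    rcases omega_tri a.prop b.prop with h | h | h
    exacts [Or.inl (Or.inl h), Or.inl (Or.inr (ext h)), Or.inr (Or.inl h)]
  toDecidableLE := Classical.decRel _

theorem lt_def {m n : NN N} : m < n ↔ m.val ∈ n.val := Iff.rfl

noncomputable instance : Zero (NN N) := ⟨mk (emp N) ind_omega.1⟩

theorem val_zero : (0 : NN N).val = emp N := rfl

/-- successor -/
noncomputable def succ (n : NN N) : NN N := mk (ins n.val n.val) (ind_omega.2 _ n.prop)

theorem val_succ (n : NN N) : n.succ.val = ins n.val n.val := rfl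

theorem lt_succ' {m n : NN N} : m < n.succ ↔ m ≤ n := by
  rw [lt_def, val_succ, mem_ins]
  exact or_congr Iff.rfl ⟨ext, congrArg val⟩

theorem succ_le' {m n : NN N} : m.succ ≤ n ↔ m < n := by
  rw [← not_lt, lt_succ', not_le]

theorem not_lt_zero' (n : NN N) : ¬ n < 0 := not_mem_emp _

theorem zero_le' (n : NN N) : 0 ≤ n := not_lt.1 (not_lt_zero' n)

theorem succ_inj' {m n : NN N} (h : m.succ = n.succ) : m = n :=
  le_antisymm (lt_succ'.1 (h ▸ lt_succ'.2 le_rfl)) (lt_succ'.1 (h ▸ lt_succ'.2 le_rfl))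

theorem succ_ne_zero' (n : NN N) : n.succ ≠ 0 := fun h =>
  not_lt_zero' n (h ▸ lt_succ'.2 le_rfl)

end NN

@[fun_prop] theorem DefF.nnVal {f : α → NN N} (hf : DefF N f) : DefF N (fun a => (f a).val) :=
  hf.code

theorem defF_nn {f : α → NN N} (hf : DefF N (fun a => (f a).val)) : DefF N f :=
  ⟨fun _ _ => inferInstance, hf.2⟩

@[fun_prop] theorem DefF.nnSucc {f : α → NN N} (hf : DefF N f) : DefF N (fun a => (f a).succ) :=
  defF_nn (hf.nnVal.ins hf.nnVal)

/-- Induction, successor form. -/
theorem NN.ind' {P : NN N → Prop} (hP : DefF N P) (h0 : P 0) (hs : ∀ n, P n → P n.succ)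
    (n : NN N) : P n := by
  have h1 : DefF N (fun x : N => ∀ m : NN N, m.val = x → P m) := by fun_prop
  refine omega_ind h1 (fun m hm => ?_) (fun x hx ih m hm => ?_) n.prop n rfl
  · exact (NN.ext hm : m = 0) ▸ h0
  · exact (NN.ext hm : m = (NN.mk x hx).succ) ▸ hs _ (ih _ rfl)

theorem NN.zero_or_succ (n : NN N) : n = 0 ∨ ∃ m : NN N, n = m.succ :=
  NN.ind' (P := fun n => n = 0 ∨ ∃ m : NN N, n = m.succ) (by fun_prop) (Or.inl rfl)
    (fun n _ => Or.inr ⟨n, rfl⟩) n

end Vale.Agent.P129B
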