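import Vale.Agent.P129B.Nat0

/-!
# Classes of definable operations
-/

namespace Vale.Agent.P129B

universe v

variable {N : Type v} [ZM N]
variable {α β γ δ : Type*} [Coded N α] [Coded N β] [Coded N γ] [Coded N δ]

/-! ### Classes of definable operations -/

/-- addition is definable -/
class DefAdd (N : Type v) [ZM N] (β : Type*) [Coded N β] [Add β] : Prop where
  out : DefF N (fun p : β × β => p.1 + p.2)
/-- subtraction is definable -/
class DefSub (N : Type v) [ZM N] (β : Type*) [Coded N β] [Sub β] : Prop where
  out : DefF N (fun p : β × β => p.1 - p.2)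
/-- negation is definable -/
class DefNeg (N : Type v) [ZM N] (β : Type*) [Coded N β] [Neg β] : Prop where
  out : DefF N (fun p : β => -p)
/-- multiplication is definable -/
class DefMul (N : Type v) [ZM N] (β : Type*) [Coded N β] [Mul β] : Prop where
  out : DefF N (fun p : β × β => p.1 * p.2)
/-- division is definable -/
class DefDiv (N : Type v) [ZM N] (β : Type*) [Coded N β] [Div β] : Prop where
  out : DefF N (fun p : β × β => p.1 / p.2)
/-- inversion is definable -/
class DefInv (N : Type v) [ZM N] (β : Type*) [Coded N β] [Inv β] : Prop where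
  out : DefF N (fun p : β => p⁻¹)
/-- the order is definable -/
class DefLE (N : Type v) [ZM N] (β : Type*) [Coded N β] [LE β] : Prop where
  out : DefF N (fun p : β × β => p.1 ≤ p.2)
/-- the strict order is definable -/
class DefLT (N : Type v) [ZM N] (β : Type*) [Coded N β] [LT β] : Prop where
  out : DefF N (fun p : β × β => p.1 < p.2)
/-- scalar multiplication is definable -/
class DefSMul (N : Type v) [ZM N] (β γ : Type*) [Coded N β] [Coded N γ] [SMul β γ] : Prop where
  out : DefF N (fun p : β × γ => p.1 • p.2)
/-- zero is internal -/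
class DefZero (N : Type v) [ZM N] (β : Type*) [Coded N β] [Zero β] : Prop where
  out : Intl N (0 : β)
/-- one is internal -/
class DefOne (N : Type v) [ZM N] (β : Type*) [Coded N β] [One β] : Prop where
  out : Intl N (1 : β)

@[fun_prop] theorem DefF.add [Add β] [h : DefAdd N β] {f g : α → β} (hf : DefF N f)
    (hg : DefF N g) : DefF N (fun a => f a + g a) := h.out.comp2 hf hg
@[fun_prop] theorem DefF.sub [Sub β] [h : DefSub N β] {f g : α → β} (hf : DefF N f)
    (hg : DefF N g) : DefF N (fun a => f a - g a) := h.out.comp2 hf hg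
@[fun_prop] theorem DefF.neg [Neg β] [h : DefNeg N β] {f : α → β} (hf : DefF N f) :
    DefF N (fun a => -f a) := h.out.comp hf
@[fun_prop] theorem DefF.mul [Mul β] [h : DefMul N β] {f g : α → β} (hf : DefF N f)
    (hg : DefF N g) : DefF N (fun a => f a * g a) := h.out.comp2 hf hg
@[fun_prop] theorem DefF.div [Div β] [h : DefDiv N β] {f g : α → β} (hf : DefF N f)
    (hg : DefF N g) : DefF N (fun a => f a / g a) := h.out.comp2 hf hg
@[fun_prop] theorem DefF.inv [Inv β] [h : DefInv N β] {f : α → β} (hf : DefF N f) :
    DefF N (fun a => (f a)⁻¹) := h.out.comp hf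
@[fun_prop] theorem DefF.le [LE β] [h : DefLE N β] {f g : α → β} (hf : DefF N f)
    (hg : DefF N g) : DefF N (fun a => f a ≤ g a) := h.out.comp2 hf hg
@[fun_prop] theorem DefF.lt [LT β] [h : DefLT N β] {f g : α → β} (hf : DefF N f)
    (hg : DefF N g) : DefF N (fun a => f a < g a) := h.out.comp2 hf hg
@[fun_prop] theorem DefF.ge [LE β] [h : DefLE N β] {f g : α → β} (hf : DefF N f)
    (hg : DefF N g) : DefF N (fun a => f a ≥ g a) := hg.le hf
@[fun_prop] theorem DefF.gt [LT β] [h : DefLT N β] {f g : α → β} (hf : DefF N f)
    (hg : DefF N g) : DefF N (fun a => f a > g a) := hg.lt hf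
@[fun_prop] theorem DefF.smul [SMul β γ] [h : DefSMul N β γ] {f : α → β} {g : α → γ}
    (hf : DefF N f) (hg : DefF N g) : DefF N (fun a => f a • g a) := h.out.comp2 hf hg

instance intl_zero [Zero β] [h : DefZero N β] : Intl N (0 : β) := h.out
instance intl_one [One β] [h : DefOne N β] : Intl N (1 : β) := h.out
instance intl_add [Add β] [h : DefAdd N β] (a b : β) [Intl N a] [Intl N b] : Intl N (a + b) :=
  h.out.intl (a, b)
instance intl_sub [Sub β] [h : DefSub N β] (a b : β) [Intl N a] [Intl N b] : Intl N (a - b) :=
  h.out.intl (a, b)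
instance intl_neg [Neg β] [h : DefNeg N β] (a : β) [Intl N a] : Intl N (-a) := h.out.intl a
instance intl_mul [Mul β] [h : DefMul N β] (a b : β) [Intl N a] [Intl N b] : Intl N (a * b) :=
  h.out.intl (a, b)
instance intl_div [Div β] [h : DefDiv N β] (a b : β) [Intl N a] [Intl N b] : Intl N (a / b) :=
  h.out.intl (a, b)
instance intl_inv [Inv β] [h : DefInv N β] (a : β) [Intl N a] : Intl N (a⁻¹) := h.out.intl a
instance intl_smul [SMul β γ] [h : DefSMul N β γ] (a : β) (b : γ) [Intl N a] [Intl N b] :
    Intl N (a • b) := h.out.intl (a, b)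

/-- powers with a standard exponent -/
@[fun_prop] theorem DefF.npow [Monoid β] [DefMul N β] [DefOne N β] {f : α → β} (hf : DefF N f)
    (n : ℕ) : DefF N (fun a => f a ^ n) := by
  induction n with
  | zero => exact (DefF.const 1).congr fun a _ => (pow_zero _).symm
  | succ n ih => exact (ih.mul hf).congr fun a _ => (pow_succ _ _).symm

instance intl_npow [Monoid β] [DefMul N β] [DefOne N β] (a : β) (n : ℕ) [Intl N a] :
    Intl N (a ^ n) := (DefF.id.npow n).intl a

@[fun_prop] theorem DefF.abs [AddCommGroup β] [LinearOrder β] [DefLE N β] [DefNeg N β] {f : α → β}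
    (hf : DefF N f) : DefF N (fun a => |f a|) := by
  have : DefF N (fun a => if f a ≤ -f a then -f a else f a) := by fun_prop
  exact this.congr fun a _ => (max_def _ _).symm

@[fun_prop] theorem DefF.max [LinearOrder β] [DefLE N β] {f g : α → β} (hf : DefF N f)
    (hg : DefF N g) : DefF N (fun a => max (f a) (g a)) := by
  have : DefF N (fun a => if f a ≤ g a then g a else f a) := by fun_prop
  exact this.congr fun a _ => (max_def _ _).symm

@[fun_prop] theorem DefF.min [LinearOrder β] [DefLE N β] {f g : α → β} (hf : DefF N f)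
    (hg : DefF N g) : DefF N (fun a => min (f a) (g a)) := by
  have : DefF N (fun a => if f a ≤ g a then f a else g a) := by fun_prop
  exact this.congr fun a _ => (min_def _ _).symm

instance intl_max [LinearOrder β] [DefLE N β] (a b : β) [Intl N a] [Intl N b] :
    Intl N (max a b) := (DefF.max DefF.id (DefF.const b)).intl a
instance intl_min [LinearOrder β] [DefLE N β] (a b : β) [Intl N a] [Intl N b] :
    Intl N (min a b) := (DefF.min DefF.id (DefF.const b)).intl a

/-- the order of a linear order from the strict order -/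
theorem defLE_of_lt [LinearOrder β] [DefLT N β] : DefLE N β := ⟨by
  have : DefF N (fun p : β × β => ¬ p.2 < p.1) := by fun_prop
  exact this.congrP fun p _ => not_lt⟩

/-- subtraction in a group -/
theorem defSub_of_neg [AddGroup β] [DefAdd N β] [DefNeg N β] : DefSub N β := ⟨by
  have : DefF N (fun p : β × β => p.1 + -p.2) := by fun_prop
  exact this.congr fun p _ => (sub_eq_add_neg _ _).symm⟩

/-- negation in a group -/
theorem defNeg_of_add [AddGroup β] [Tot N β] [DefAdd N β] : DefNeg N β :=
  ⟨defF_of_rel (R := fun (p : β) (c : β) => p + c = 0) (fun _ _ => inferInstance) (by fun_prop)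
    fun _ _ _ _ => add_eq_zero_iff_neg_eq⟩

/-- inversion in a field -/
theorem defInv_of_mul [Field β] [Tot N β] [DefMul N β] : DefInv N β :=
  ⟨defF_of_rel (R := fun (p : β) (c : β) => (p = 0 ∧ c = 0) ∨ p * c = 1)
    (fun _ _ => inferInstance) (by fun_prop) fun p c _ _ => by
      constructor
      · rintro (⟨h1, h2⟩ | h)
        · rw [h1, h2, inv_zero]
        · exact inv_eq_of_mul_eq_one_right h
      · rintro rfl
        by_cases h : p = 0
        · exact Or.inl ⟨h, by rw [h, inv_zero]⟩
        · exact Or.inr (mul_inv_cancel₀ h)⟩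

/-- division in a field -/
theorem defDiv_of_inv [Field β] [DefMul N β] [DefInv N β] : DefDiv N β := ⟨by
  have : DefF N (fun p : β × β => p.1 * p.2⁻¹) := by fun_prop
  exact this.congr fun p _ => (div_eq_mul_inv _ _).symm⟩

instance (priority := low) defZero_of_tot [Zero β] [Tot N β] : DefZero N β := ⟨Tot.intl _⟩
instance (priority := low) defOne_of_tot [One β] [Tot N β] : DefOne N β := ⟨Tot.intl _⟩

instance : DefLT N (NN N) := ⟨by
  have : DefF N (fun p : NN N × NN N => p.1.val ∈ p.2.val) := by fun_prop
  exact this⟩

instance : DefLE N (NN N) := defLE_of_lt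

end Vale.Agent.P129B
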