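import Vale.Agent.P129B.Ops

/-!
# Recursion on the natural numbers of a model; arithmetic
-/

namespace Vale.Agent.P129B

universe v

variable {N : Type v} [ZM N]
variable {α β γ : Type*} [Coded N α] [Coded N β] [Coded N γ]

/-- `b` is the value at `n` of an approximation of the recursion -/
def RecR (z : β) (s : NN N → β → β) (n : NN N) (b : β) : Prop :=
  ∃ t : NN N → β, Intl N t ∧ t 0 = z ∧ (∀ i, i < n → t i.succ = s i (t i)) ∧ t n = b

theorem RecR.uniq {z : β} {s : NN N → β → β} {n : NN N} {b c : β} (h : RecR z s n b)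
    (k : RecR z s n c) : b = c := by
  obtain ⟨t, ht, h0, h1, rfl⟩ := h
  obtain ⟨u, hu, k0, k1, rfl⟩ := k
  refine NN.ind' (P := fun i => i ≤ n → t i = u i) (by fun_prop) (fun _ => h0.trans k0.symm)
    (fun i ih hi => ?_) n le_rfl
  have h2 := NN.succ_le'.1 hi
  rw [h1 i h2, k1 i h2, ih h2.le]

open Classical in
/-- recursion on the natural numbers of the model -/
noncomputable def irec (z : β) (s : NN N → β → β) (n : NN N) : β :=
  if h : ∃ b, RecR z s n b then h.choose else z

theorem RecR.irec_eq {z : β} {s : NN N → β → β} {n : NN N} {b : β} (h : RecR z s n b) :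
    irec z s n = b := by
  have h1 : ∃ b, RecR z s n b := ⟨b, h⟩
  rw [irec, dif_pos h1]
  exact h1.choose_spec.uniq h

@[simp] theorem irec_zero (z : β) (s : NN N → β → β) : irec z s 0 = z := by
  rw [irec]
  split_ifs with h
  · obtain ⟨t, -, h0, -, h1⟩ := h.choose_spec
    exact h1.symm.trans h0
  · rfl

theorem RecR.succ {z : β} {s : NN N → β → β} (hs : DefF N (fun p : NN N × β => s p.1 p.2))
    {n : NN N} {b : β} (h : RecR z s n b) : RecR z s n.succ (s n b) := by
  classical
  obtain ⟨t, ht, h0, h1, rfl⟩ := h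
  have h2 : Intl N (s n (t n)) := hs.intl (n, t n)
  refine ⟨Function.update t n.succ (s n (t n)), inferInstance, ?_, fun i hi => ?_, by simp⟩
  · rw [Function.update_of_ne n.succ_ne_zero'.symm, h0]
  · have h3 : i ≠ n.succ := hi.ne
    rw [Function.update_of_ne h3]
    rcases (NN.lt_succ'.1 hi).lt_or_eq with h | rfl
    · rw [Function.update_of_ne (fun e => h.ne (NN.succ_inj' e)), h1 i h]
    · simp

theorem recR_irec {z : β} {s : NN N → β → β} [Intl N z]
    (hs : DefF N (fun p : NN N × β => s p.1 p.2)) (n : NN N) : RecR z s n (irec z s n) := by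
  have h1 : ∃ t : NN N → β, Intl N t ∧ t 0 = z ∧ (∀ i, i < n → t i.succ = s i (t i)) := by
    refine NN.ind' (P := fun n => ∃ t : NN N → β, Intl N t ∧ t 0 = z ∧
      (∀ i, i < n → t i.succ = s i (t i))) (by fun_prop)
      ⟨fun _ => z, inferInstance, rfl, fun i hi => absurd hi (NN.not_lt_zero' i)⟩ ?_ n
    rintro n ⟨t, ht, h0, h1⟩
    obtain ⟨u, hu, k0, k1, -⟩ := RecR.succ hs (n := n) ⟨t, ht, h0, h1, rfl⟩
    exact ⟨u, hu, k0, k1⟩
  obtain ⟨t, ht, h0, h1⟩ := h1
  have h2 : RecR z s n (t n) := ⟨t, ht, h0, h1, rfl⟩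
  rw [h2.irec_eq]
  exact h2

theorem irec_succ' {z : β} {s : NN N → β → β} [Intl N z]
    (hs : DefF N (fun p : NN N × β => s p.1 p.2)) (n : NN N) :
    irec z s n.succ = s n (irec z s n) := ((recR_irec hs n).succ hs).irec_eq

/-- Recursion, uniformly in a parameter. -/
@[fun_prop] theorem DefF.irec {z : α → β} {s : α → NN N → β → β} {n : α → NN N} (hz : DefF N z)
    (hs : DefF N (fun p : α × NN N × β => s p.1 p.2.1 p.2.2)) (hn : DefF N n) :
    DefF N (fun a => irec (z a) (s a) (n a)) := by
  have key : ∀ a, Intl N a → RecR (z a) (s a) (n a) (P129B.irec (z a) (s a) (n a)) := by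
    intro a ha
    have := hz.intl a
    exact recR_irec (DefF.comp (f := fun p : α × NN N × β => s p.1 p.2.1 p.2.2)
      (g := fun p : NN N × β => (a, p)) hs (by fun_prop)) (n a)
  refine defF_of_rel (R := fun a b => RecR (z a) (s a) (n a) b) (fun a ha => ?_) ?_
    fun a b ha _ => ⟨fun h => h.irec_eq, fun h => h ▸ key a ha⟩
  · obtain ⟨t, ht, -, -, h⟩ := key a ha
    rw [← h]; infer_instance
  · have h2 : DefF N (fun q : ((α × β) × (NN N → β)) × NN N => s q.1.1.1 q.2 (q.1.2 q.2)) :=
      DefF.comp (f := fun p : α × NN N × β => s p.1 p.2.1 p.2.2)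
        (g := fun q : ((α × β) × (NN N → β)) × NN N => (q.1.1.1, q.2, q.1.2 q.2)) hs
        (by fun_prop)
    refine DefF.ex (P := fun (q : α × β) (t : NN N → β) => t 0 = z q.1 ∧
      (∀ i, i < n q.1 → t i.succ = s q.1 i (t i)) ∧ t (n q.1) = q.2)
      (DefF.and (by fun_prop) (DefF.and ?_ (by fun_prop)))
    exact DefF.allT (P := fun (q : (α × β) × (NN N → β)) (i : NN N) =>
      i < n q.1.1 → q.2 i.succ = s q.1.1 i (q.2 i))
      (DefF.imp (by fun_prop) (DefF.eq (by fun_prop) h2))

namespace NN

noncomputable instance : Add (NN N) := ⟨fun m n => irec m (fun _ b => b.succ) n⟩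
noncomputable instance : One (NN N) := ⟨succ 0⟩

theorem add_def (m n : NN N) : m + n = irec m (fun _ b => b.succ) n := rfl

instance : DefAdd N (NN N) := ⟨by simp only [add_def]; fun_prop⟩

theorem add_zero' (m : NN N) : m + 0 = m := irec_zero _ _
theorem add_succ' (m n : NN N) : m + n.succ = (m + n).succ := irec_succ' (by fun_prop) n
theorem add_one' (m : NN N) : m + 1 = m.succ := (add_succ' m 0).trans (by rw [add_zero'])

theorem zero_add' (n : NN N) : 0 + n = n :=
  NN.ind' (P := fun n => 0 + n = n) (by fun_prop) (add_zero' 0)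
    (fun n ih => by rw [add_succ', ih]) n

theorem succ_add' (m n : NN N) : m.succ + n = (m + n).succ :=
  NN.ind' (P := fun n => m.succ + n = (m + n).succ) (by fun_prop) (by rw [add_zero', add_zero'])
    (fun n ih => by rw [add_succ', ih, add_succ']) n

theorem add_comm' (m n : NN N) : m + n = n + m :=
  NN.ind' (P := fun n => m + n = n + m) (by fun_prop) (by rw [add_zero', zero_add'])
    (fun n ih => by rw [add_succ', ih, succ_add']) n

theorem add_assoc' (a b c : NN N) : a + b + c = a + (b + c) :=
  NN.ind' (P := fun c => a + b + c = a + (b + c)) (by fun_prop) (by rw [add_zero', add_zero'])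
    (fun c ih => by rw [add_succ', ih, add_succ', add_succ']) c

noncomputable instance : AddCommMonoid (NN N) where
  add_assoc := add_assoc'
  zero_add := zero_add'
  add_zero := add_zero'
  add_comm := add_comm'
  nsmul := nsmulRec

noncomputable instance : Mul (NN N) := ⟨fun m n => irec 0 (fun _ b => b + m) n⟩

theorem mul_def (m n : NN N) : m * n = irec 0 (fun _ b => b + m) n := rfl

instance : DefMul N (NN N) := ⟨by simp only [mul_def]; fun_prop⟩

theorem mul_zero' (m : NN N) : m * 0 = 0 := irec_zero _ _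
theorem mul_succ' (m n : NN N) : m * n.succ = m * n + m := irec_succ' (by fun_prop) n

theorem zero_mul' (n : NN N) : 0 * n = 0 :=
  NN.ind' (P := fun n => 0 * n = 0) (by fun_prop) (mul_zero' 0)
    (fun n ih => by rw [mul_succ', ih, add_zero]) n

theorem succ_mul' (m n : NN N) : m.succ * n = m * n + n :=
  NN.ind' (P := fun n => m.succ * n = m * n + n) (by fun_prop) (by rw [mul_zero', mul_zero', add_zero])
    (fun n ih => by
      rw [mul_succ', ih, mul_succ', add_succ', add_succ', add_right_comm]) n

theorem mul_comm' (m n : NN N) : m * n = n * m :=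
  NN.ind' (P := fun n => m * n = n * m) (by fun_prop) (by rw [mul_zero', zero_mul'])
    (fun n ih => by rw [mul_succ', ih, succ_mul']) n

theorem mul_add' (a b c : NN N) : a * (b + c) = a * b + a * c :=
  NN.ind' (P := fun c => a * (b + c) = a * b + a * c) (by fun_prop)
    (by rw [add_zero, mul_zero', add_zero])
    (fun c ih => by rw [add_succ', mul_succ', ih, mul_succ', add_assoc]) c

theorem mul_assoc' (a b c : NN N) : a * b * c = a * (b * c) :=
  NN.ind' (P := fun c => a * b * c = a * (b * c)) (by fun_prop)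
    (by rw [mul_zero', mul_zero', mul_zero'])
    (fun c ih => by rw [mul_succ', ih, mul_succ', mul_add']) c

theorem mul_one' (m : NN N) : m * 1 = m := (mul_succ' m 0).trans (by rw [mul_zero', zero_add])

noncomputable instance : CommSemiring (NN N) where
  mul_assoc := mul_assoc'
  one_mul m := (mul_comm' 1 m).trans (mul_one' m)
  mul_one := mul_one'
  mul_comm := mul_comm'
  zero_mul := zero_mul'
  mul_zero := mul_zero'
  left_distrib := mul_add'
  right_distrib a b c := by rw [mul_comm', mul_add', mul_comm' c, mul_comm' c]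
  npow := npowRec

theorem succ_eq (n : NN N) : n.succ = n + 1 := (add_one' n).symm

/-- **Induction** on the natural numbers of the model, for definable predicates. -/
theorem ind {P : NN N → Prop} (hP : DefF N P) (h0 : P 0) (hs : ∀ n, P n → P (n + 1))
    (n : NN N) : P n := ind' hP h0 (fun n h => succ_eq n ▸ hs n h) n

theorem lt_add_one_iff {m n : NN N} : m < n + 1 ↔ m ≤ n := succ_eq n ▸ lt_succ'
theorem add_one_le_iff {m n : NN N} : m + 1 ≤ n ↔ m < n := succ_eq m ▸ succ_le'

theorem add_lt_add_left' {a b : NN N} (h : a < b) (c : NN N) : c + a < c + b := by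
  refine ind (P := fun c => c + a < c + b) (by fun_prop) (by rwa [zero_add, zero_add])
    (fun c ih => ?_) c
  rw [add_right_comm c 1 a, add_right_comm c 1 b, lt_add_one_iff, add_one_le_iff]
  exact ih

instance : IsOrderedCancelAddMonoid (NN N) where
  add_le_add_left a b h c := by
    rcases h.lt_or_eq with h | rfl
    · rw [add_comm a, add_comm b]; exact (add_lt_add_left' h c).le
    · exact le_rfl
  le_of_add_le_add_left a b c h := not_lt.1 fun k => not_lt.2 h (add_lt_add_left' k a)

theorem exists_add_of_le' {a b : NN N} (h : a ≤ b) : ∃ c, b = a + c := by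
  refine ind (P := fun b => a ≤ b → ∃ c, b = a + c) (by fun_prop)
    (fun h => ⟨0, by rw [add_zero]; exact le_antisymm (zero_le' a) h⟩) (fun b ih h => ?_) b h
  rcases h.lt_or_eq with h | h
  · obtain ⟨c, hc⟩ := ih (lt_add_one_iff.1 h)
    exact ⟨c + 1, by rw [hc, add_assoc]⟩
  · exact ⟨0, by rw [add_zero, h]⟩

theorem le_self_add' (a b : NN N) : a ≤ a + b := by
  have := add_le_add_right (zero_le' b) a
  rwa [add_zero] at this

instance : CanonicallyOrderedAdd (NN N) where
  exists_add_of_le := exists_add_of_le'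
  le_self_add := le_self_add'
  le_add_self a b := add_comm a b ▸ le_self_add' a b

noncomputable instance : OrderBot (NN N) where
  bot := 0
  bot_le := zero_le'

instance : Nontrivial (NN N) := ⟨⟨1, 0, succ_ne_zero' 0⟩⟩

theorem mul_pos' {a b : NN N} (ha : 0 < a) (hb : 0 < b) : 0 < a * b := by
  rcases zero_or_succ b with rfl | ⟨c, rfl⟩
  · exact absurd hb (lt_irrefl _)
  · rw [mul_succ']; exact ha.trans_le le_add_self

instance : IsStrictOrderedRing (NN N) := by
  have key : ∀ a b c : NN N, 0 < a → b < c → a * b < a * c := by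
    intro a b c ha h
    obtain ⟨d, rfl⟩ := exists_add_of_le' h.le
    rw [mul_add]
    exact lt_add_of_pos_right _ (mul_pos' ha (pos_of_lt_add_right h))
  exact
    { zero_le_one := zero_le' 1
      mul_lt_mul_of_pos_left := fun {a} ha {b c} h => key a b c ha h
      mul_lt_mul_of_pos_right := fun {c} hc {a b} h => by
        rw [mul_comm a, mul_comm b]; exact key c a b hc h }

noncomputable instance : SuccOrder (NN N) :=
  SuccOrder.ofSuccLeIff (fun n => n + 1) add_one_le_iff

noncomputable instance : SuccAddOrder (NN N) := ⟨fun _ => rfl⟩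

open Classical in
noncomputable instance : Sub (NN N) :=
  ⟨fun a b => if h : b ≤ a then (exists_add_of_le' h).choose else 0⟩

theorem add_sub_of_le' {a b : NN N} (h : b ≤ a) : b + (a - b) = a := by
  show b + (dite _ _ _) = a
  rw [dif_pos h]
  exact (exists_add_of_le' h).choose_spec.symm

theorem sub_of_not_le' {a b : NN N} (h : ¬ b ≤ a) : a - b = 0 := by
  show (dite _ _ _) = 0
  rw [dif_neg h]

instance : OrderedSub (NN N) where
  tsub_le_iff_right a b c := by
    by_cases h : b ≤ a
    · conv_rhs => rw [← add_sub_of_le' h, add_comm c b]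
      exact (add_le_add_iff_left b).symm
    · rw [sub_of_not_le' h]
      exact iff_of_true (zero_le' c) ((not_le.1 h).le.trans le_add_self)

instance : DefSub N (NN N) := ⟨defF_of_rel (R := fun (p : NN N × NN N) (c : NN N) =>
    (¬ p.2 ≤ p.1 ∧ c = 0) ∨ p.2 + c = p.1) (fun _ _ => inferInstance) (by fun_prop)
    fun p c _ _ => by
      constructor
      · rintro (⟨h1, h2⟩ | h)
        · rw [sub_of_not_le' h1, h2]
        · rw [← h, add_tsub_cancel_left]
      · rintro rfl
        by_cases h : p.2 ≤ p.1
        · exact Or.inr (add_sub_of_le' h)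
        · exact Or.inl ⟨h, sub_of_not_le' h⟩⟩

theorem zero_or_add_one (n : NN N) : n = 0 ∨ ∃ m : NN N, n = m + 1 :=
  (zero_or_succ n).imp id fun ⟨m, h⟩ => ⟨m, h.trans (succ_eq m)⟩

theorem lt_add_one (n : NN N) : n < n + 1 := lt_add_one_iff.2 le_rfl

theorem lt_add_one_cases {m n : NN N} (h : m < n + 1) : m < n ∨ m = n :=
  (lt_add_one_iff.1 h).lt_or_eq

theorem add_one_ne_zero (n : NN N) : n + 1 ≠ 0 := succ_eq n ▸ succ_ne_zero' n

/-- Strong induction. -/
theorem strong_ind {P : NN N → Prop} (hP : DefF N P) (hs : ∀ n, (∀ m, m < n → P m) → P n)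
    (n : NN N) : P n :=
  ind (P := fun n => ∀ m, m < n → P m) (by fun_prop) (fun m hm => absurd hm (not_lt_zero' m))
    (fun n ih m hm => (lt_add_one_cases hm).elim (ih m) fun e => e ▸ hs n ih) (n + 1) n
    (lt_add_one n)

/-- Induction from a starting point. -/
theorem le_ind {P : NN N → Prop} (hP : DefF N P) {k : NN N} (h0 : P k)
    (hs : ∀ n, k ≤ n → P n → P (n + 1)) {n : NN N} (hn : k ≤ n) : P n := by
  obtain ⟨c, rfl⟩ := exists_add_of_le' hn
  exact ind (P := fun c => P (k + c)) (by fun_prop) (by rwa [add_zero])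
    (fun c ih => add_assoc k c 1 ▸ hs _ le_self_add ih) c

/-- The least number principle. -/
theorem exists_min {P : NN N → Prop} (hP : DefF N P) (h : ∃ n, P n) :
    ∃ n, P n ∧ ∀ m, m < n → ¬ P m := by
  by_contra hc
  obtain ⟨n, hn⟩ := h
  exact strong_ind (P := fun n => ¬ P n) hP.not (fun n ih hn => hc ⟨n, hn, ih⟩) n hn

end NN

theorem irec_succ {z : β} {s : NN N → β → β} [Intl N z]
    (hs : DefF N (fun p : NN N × β => s p.1 p.2)) (n : NN N) :
    irec z s (n + 1) = s n (irec z s n) := NN.succ_eq n ▸ irec_succ' hs n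

theorem intl_irec {z : β} {s : NN N → β → β} [Intl N z]
    (hs : DefF N (fun p : NN N × β => s p.1 p.2)) : Intl N (irec z s) :=
  (DefF.irec (α := NN N) (z := fun _ => z) (s := fun _ => s) (n := fun n => n) (DefF.const z)
    (hs.comp DefF.id.snd) DefF.id).toIntl

/-- Existence of a sequence with given recursion equations. -/
theorem exists_intl_rec (z : β) [Intl N z] {s : NN N → β → β}
    (hs : DefF N (fun p : NN N × β => s p.1 p.2)) :
    ∃ t : NN N → β, Intl N t ∧ t 0 = z ∧ ∀ n, t (n + 1) = s n (t n) :=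
  ⟨irec z s, intl_irec hs, irec_zero z s, irec_succ hs⟩

end Vale.Agent.P129B
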